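import Vale.Agent.P181.H602.Span
import Vale.Agent.P181.H482.PB

/-!
# Bridge: (S) implies the binary kernel theorem in the form `H482.K2aff`
-/

namespace Vale.Agent.P181.H602

open MvPolynomial

variable {K : Type*} [Field K]

/-- (S) for the active set `SOpt X'` implies the binary kernel theorem for `q = s + 1` and
`#X'` points. -/
theorem K2aff_of_SStmt [Infinite K] {X' : Type*} [Fintype X'] [DecidableEq X'] (s : ℕ)
    (hS : SStmt K (s + 1) (SOpt X')) : H482.K2aff K X' s := by
  intro m hm
  have h1 : monomial m (1 : K) ∈ box (fun _ : X' => (s + 1) * Fintype.card X') := by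
    rw [mem_box]
    intro m' hm' i
    have : m' = m := by
      have := support_monomial_subset hm'
      simpa using this
    subst this
    exact hm i
  have h2 := K2_of_SStmt (by omega) hS _ h1
  refine Submodule.span_mono ?_ h2
  rintro g ⟨y, -, rfl⟩
  refine ⟨y, ?_⟩
  simp [H482.Py, PX]

end Vale.Agent.P181.H602
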