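import Vale.Agent.P181.H602.Ker

/-!
# The kernels span the box, given the dimension of the kernel of one Dunkl operator
-/

namespace Vale.Agent.P181.H602

open MvPolynomial

variable {ι : Type*} [DecidableEq ι] {K : Type*} [Field K]

/-- The bounds of the box: exponents `< q n` on `S` (`n = #S`), `< 1` off `S`. -/
def bnd (q : ℕ) (S : Finset ι) (i : ι) : ℕ := if i ∈ S then q * S.card else 1

theorem bnd_of_mem {q : ℕ} {S : Finset ι} {i : ι} (h : i ∈ S) : bnd q S i = q * S.card := by
  simp [bnd, h]

theorem bnd_of_notMem {q : ℕ} {S : Finset ι} {i : ι} (h : i ∉ S) : bnd q S i = 1 := by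
  simp [bnd, h]

section

variable [Fintype ι]

theorem prod_bnd (q : ℕ) (S : Finset ι) : ∏ i, bnd q S i = (q * S.card) ^ S.card := by
  unfold bnd
  rw [Finset.prod_ite]
  simp

theorem prod_bnd_update (q : ℕ) {S : Finset ι} {z : ι} (hz : z ∈ S) (c : ℕ) :
    ∏ i, Function.update (bnd q S) z c i = c * (q * S.card) ^ (S.card - 1) := by
  rw [← Finset.mul_prod_erase Finset.univ _ (Finset.mem_univ z), Function.update_self]
  congr 1
  have h1 : ∏ i ∈ Finset.univ.erase z, Function.update (bnd q S) z c i
      = ∏ i ∈ Finset.univ.erase z, bnd q S i := by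
    refine Finset.prod_congr rfl fun i hi => ?_
    rw [Function.update_of_ne (Finset.ne_of_mem_erase hi)]
  rw [h1]
  unfold bnd
  rw [Finset.prod_ite]
  have h2 : (Finset.univ.erase z).filter (fun i => i ∈ S) = S.erase z := by
    ext i; simp [and_comm]
  rw [h2]
  simp [Finset.card_erase_of_mem hz]

/-- Surjectivity of the Dunkl operator from the dimension of its kernel. -/
theorem T_surj {q : ℕ} {S : Finset ι} {z : ι} (hz : z ∈ S)
    (hS : Module.finrank K (KS (q : K) S z (bnd q S)) ≤ (q * S.card) ^ (S.card - 1))
    {g : MvPolynomial ι K} (hg : g ∈ box (Function.update (bnd q S) z (q * S.card - 1))) :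
    ∃ f ∈ box (bnd q S), T (q : K) S z f = g := by
  have hmap : ∀ f ∈ box (K := K) (bnd q S),
      T (q : K) S z f ∈ box (Function.update (bnd q S) z (q * S.card - 1)) := by
    intro f hf
    have := T_mem_box (q : K) S z hf (fun j hj => by
      rw [bnd_of_mem hz, bnd_of_mem (Finset.mem_of_mem_erase hj)]; omega)
    rwa [bnd_of_mem hz] at this
  let L : box (K := K) (bnd q S) →ₗ[K]
      box (K := K) (Function.update (bnd q S) z (q * S.card - 1)) :=
    (T (q : K) S z).restrict hmap
  have h3 := LinearMap.finrank_range_add_finrank_ker L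
  have h4 : Module.finrank K (LinearMap.ker L) ≤ Module.finrank K (KS (q : K) S z (bnd q S)) := by
    let M : LinearMap.ker L →ₗ[K] KS (q : K) S z (bnd q S) :=
      { toFun := fun x => ⟨x.1.1, mem_KS.2 ⟨by
          have := x.2
          rw [LinearMap.mem_ker] at this
          exact congrArg Subtype.val this, x.1.2⟩⟩
        map_add' := fun x y => rfl
        map_smul' := fun c x => rfl }
    apply LinearMap.finrank_le_finrank_of_injective (f := M)
    intro x y hxy
    apply Subtype.ext
    apply Subtype.ext
    exact congrArg (fun w : KS (q : K) S z (bnd q S) => (w : MvPolynomial ι K)) hxy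
  have h5 : Module.finrank K (LinearMap.range L)
      = Module.finrank K (box (K := K) (Function.update (bnd q S) z (q * S.card - 1))) := by
    apply le_antisymm (Submodule.finrank_le _)
    rw [finrank_box, prod_bnd] at h3
    rw [finrank_box, prod_bnd_update q hz]
    have hn : 1 ≤ S.card := Finset.card_pos.2 ⟨z, hz⟩
    have h6 : (q * S.card) ^ S.card = (q * S.card) * (q * S.card) ^ (S.card - 1) := by
      rw [← pow_succ']; congr 1; omega
    rw [h6] at h3
    have h7 : (q * S.card - 1) * (q * S.card) ^ (S.card - 1)
        = (q * S.card) * (q * S.card) ^ (S.card - 1) - (q * S.card) ^ (S.card - 1) := by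
      rw [Nat.sub_mul, one_mul]
    omega
  have h6 : LinearMap.range L = ⊤ := Submodule.eq_top_of_finrank_eq h5
  have h7 : (⟨g, hg⟩ : box (K := K) (Function.update (bnd q S) z (q * S.card - 1)))
      ∈ LinearMap.range L := by rw [h6]; trivial
  obtain ⟨f, hf⟩ := h7
  exact ⟨f.1, f.2, congrArg Subtype.val hf⟩

end

/-! ### The top monomial -/

/-- The family `y = s v`. -/
noncomputable def Gv (q : ℕ) (S : Finset ι) (v : ι → K) : Polynomial (MvPolynomial ι K) :=
  ∏ a ∈ S, ∏ b ∈ S,
    (Polynomial.C (X a) - Polynomial.C (C (v b)) * Polynomial.X) ^ ex q a b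

theorem eval_Gv (q : ℕ) (S : Finset ι) (v : ι → K) (s : K) :
    (Gv q S v).eval (C s) = P q S (fun i => v i * s) := by
  unfold Gv P
  rw [Polynomial.eval_prod]
  refine Finset.prod_congr rfl fun a _ => ?_
  rw [Polynomial.eval_prod]
  refine Finset.prod_congr rfl fun b _ => ?_
  rw [Polynomial.eval_pow, Polynomial.eval_sub, Polynomial.eval_C, Polynomial.eval_mul,
    Polynomial.eval_C, Polynomial.eval_X, C_mul]

theorem P_zero (q : ℕ) (S : Finset ι) :
    P q S (fun _ => (0 : K)) = ∏ a ∈ S, X a ^ (∑ b ∈ S, ex q a b) := by
  unfold P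
  refine Finset.prod_congr rfl fun a _ => ?_
  rw [← Finset.prod_pow_eq_pow_sum]
  refine Finset.prod_congr rfl fun b _ => ?_
  rw [C_0, sub_zero]

theorem sum_ex {q : ℕ} (hq : 1 ≤ q) {S : Finset ι} {a : ι} (ha : a ∈ S) :
    ∑ b ∈ S, ex q a b = q * S.card - 1 := by
  rw [← Finset.add_sum_erase S _ ha]
  have h1 : ∑ b ∈ S.erase a, ex q a b = ∑ b ∈ S.erase a, q := by
    refine Finset.sum_congr rfl fun b hb => ?_
    simp [ex, (Finset.ne_of_mem_erase hb).symm]
  rw [h1, Finset.sum_const, Finset.card_erase_of_mem ha, smul_eq_mul]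
  have hn : 1 ≤ S.card := Finset.card_pos.2 ⟨a, ha⟩
  obtain ⟨n, hn'⟩ : ∃ n, S.card = n + 1 := ⟨S.card - 1, by omega⟩
  rw [hn']
  simp only [ex, if_true, Nat.add_sub_cancel]
  have : q * (n + 1) = n * q + q := by ring
  omega

theorem exists_injOn [Infinite K] (S : Finset ι) :
    ∃ v : ι → K, Set.InjOn v (S : Set ι) := by
  let e := S.equivFin
  refine ⟨fun i => if h : i ∈ S then Infinite.natEmbedding K (e ⟨i, h⟩) else 0, ?_⟩
  intro a ha b hb hab
  have ha' : a ∈ S := ha
  have hb' : b ∈ S := hb
  simp only [dif_pos ha', dif_pos hb'] at hab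
  have h1 := (Infinite.natEmbedding K).injective hab
  have h2 := e.injective (Fin.ext h1)
  exact congrArg Subtype.val h2

theorem P_zero_mem_W [Infinite K] (q : ℕ) (S : Finset ι) :
    P q S (fun _ => (0 : K)) ∈ W K q S := by
  obtain ⟨v, hv⟩ := exists_injOn (K := K) S
  have h1 : (Gv q S v).coeff 0 ∈ W K q S := by
    refine coeff_mem_of_eval_mem _ _ (A := {s : K | s ≠ 0}) ?_ ?_ 0
    · have : {s : K | s ≠ 0} = ({0} : Set K)ᶜ := by ext; simp
      rw [this]
      exact (Set.finite_singleton 0).infinite_compl
    · intro s hs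
      rw [eval_Gv]
      apply P_mem_W
      intro a ha b hb hab
      exact hv ha hb (mul_right_cancel₀ hs hab)
  rw [Polynomial.coeff_zero_eq_eval_zero, ← C_0, eval_Gv] at h1
  simpa using h1

/-! ### The span -/

theorem monomial_mem_W {q : ℕ} (hq : 1 ≤ q) [Infinite K] {S : Finset ι}
    (hsurj : ∀ z ∈ S, ∀ g ∈ box (K := K) (Function.update (bnd q S) z (q * S.card - 1)),
      ∃ f ∈ box (bnd q S), T (q : K) S z f = g) (D : ℕ) :
    ∀ m : ι →₀ ℕ, (∀ i, m i < bnd q S i) → m.degree + D = S.card * (q * S.card - 1) →
      monomial m (1 : K) ∈ W K q S := by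
  have hsupp : ∀ m : ι →₀ ℕ, (∀ i, m i < bnd q S i) → m.degree = ∑ i ∈ S, m i := by
    intro m hm
    rw [Finsupp.degree_apply]
    apply Finset.sum_subset
    · intro i hi
      by_contra h
      have := hm i
      rw [bnd_of_notMem h] at this
      rw [Finsupp.mem_support_iff] at hi
      omega
    · intro i _ hi
      exact Finsupp.notMem_support_iff.1 hi
  induction D with
  | zero =>
    intro m hm hdeg
    rw [hsupp m hm, add_zero] at hdeg
    have hall : ∀ i ∈ S, m i = q * S.card - 1 := by
      intro i hi
      by_contra hne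
      have hle : ∀ j ∈ S, m j ≤ q * S.card - 1 := by
        intro j hj
        have := hm j
        rw [bnd_of_mem hj] at this
        omega
      have hlt : ∑ j ∈ S, m j < ∑ _j ∈ S, (q * S.card - 1) :=
        Finset.sum_lt_sum hle ⟨i, hi, lt_of_le_of_ne (hle i hi) hne⟩
      rw [Finset.sum_const, smul_eq_mul] at hlt
      omega
    have h1 : monomial m (1 : K) = P q S (fun _ => (0 : K)) := by
      rw [P_zero, Finset.prod_congr rfl fun a ha => by rw [sum_ex hq ha],
        monomial_eq, C_1, one_mul, Finsupp.prod]
      rw [Finset.prod_subset (s₂ := S)]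
      · exact Finset.prod_congr rfl fun a ha => by rw [hall a ha]
      · intro i hi
        by_contra h
        have := hm i
        rw [bnd_of_notMem h] at this
        rw [Finsupp.mem_support_iff] at hi
        omega
      · intro i _ hi
        rw [Finsupp.notMem_support_iff.1 hi, pow_zero]
    rw [h1]
    exact P_zero_mem_W q S
  | succ D ih =>
    intro m hm hdeg
    -- some exponent is smaller than the maximum
    have hex : ∃ z ∈ S, m z < q * S.card - 1 := by
      by_contra hcon
      push Not at hcon
      have h1 : ∑ _j ∈ S, (q * S.card - 1) ≤ ∑ j ∈ S, m j := Finset.sum_le_sum hcon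
      rw [Finset.sum_const, smul_eq_mul, ← hsupp m hm] at h1
      omega
    obtain ⟨z, hz, hmz⟩ := hex
    have hmem : monomial m (1 : K) ∈ box (Function.update (bnd q S) z (q * S.card - 1)) := by
      rw [mem_box]
      intro m' hm' i
      have : m' = m := by
        have := support_monomial_subset hm'
        simpa using this
      subst this
      rcases eq_or_ne i z with h | h
      · subst h; rw [Function.update_self]; exact hmz
      · rw [Function.update_of_ne h]; exact hm i
    obtain ⟨f, hf, hTf⟩ := hsurj z hz _ hmem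
    set f' := homogeneousComponent (m.degree + 1) f with hf'
    have h2 : T (q : K) S z f' = monomial m 1 := by
      rw [hf', ← hc_T, hTf]
      exact homogeneousComponent_eq_self (isHomogeneous_monomial _ rfl)
    have h3 : f' ∈ W K q S := by
      have h4 : f' ∈ box (bnd q S) := hc_mem_box hf _
      rw [← f'.support_sum_monomial_coeff]
      refine Submodule.sum_mem _ fun v hv => ?_
      have h5 : monomial v (coeff v f') = coeff v f' • monomial v (1 : K) := by
        rw [smul_monomial, smul_eq_mul, mul_one]
      rw [h5]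
      refine Submodule.smul_mem _ _ (ih v (mem_box.1 h4 v hv) ?_)
      have h6 : v.degree = m.degree + 1 := by
        rw [hf', support_homogeneousComponent, Finset.mem_filter] at hv
        exact hv.2
      omega
    rw [← h2]
    exact T_mem_W hq hz h3

/-- **The kernels span the box.** -/
theorem box_le_W {q : ℕ} (hq : 1 ≤ q) [Infinite K] {S : Finset ι}
    (hsurj : ∀ z ∈ S, ∀ g ∈ box (K := K) (Function.update (bnd q S) z (q * S.card - 1)),
      ∃ f ∈ box (bnd q S), T (q : K) S z f = g) :
    box (K := K) (bnd q S) ≤ W K q S := by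
  intro f hf
  rw [← f.support_sum_monomial_coeff]
  refine Submodule.sum_mem _ fun v hv => ?_
  have h5 : monomial v (coeff v f) = coeff v f • monomial v (1 : K) := by
    rw [smul_monomial, smul_eq_mul, mul_one]
  rw [h5]
  refine Submodule.smul_mem _ _ ?_
  have hm := mem_box.1 hf v hv
  have hle : v.degree ≤ S.card * (q * S.card - 1) := by
    rw [Finsupp.degree_apply]
    calc ∑ i ∈ v.support, v i ≤ ∑ i ∈ S, v i := by
          apply Finset.sum_le_sum_of_subset
          intro i hi
          by_contra h
          have := hm i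
          rw [bnd_of_notMem h] at this
          rw [Finsupp.mem_support_iff] at hi
          omega
      _ ≤ ∑ _i ∈ S, (q * S.card - 1) := by
          refine Finset.sum_le_sum fun i hi => ?_
          have := hm i
          rw [bnd_of_mem hi] at this
          omega
      _ = S.card * (q * S.card - 1) := by rw [Finset.sum_const, smul_eq_mul]
  exact monomial_mem_W hq hsurj (S.card * (q * S.card - 1) - v.degree) v hm (by omega)

/-- The dimension bound (S) for the active set `S`. -/
def SStmt (K : Type*) [Field K] {ι : Type*} [DecidableEq ι] [Fintype ι] (q : ℕ)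
    (S : Finset ι) : Prop :=
  ∀ z ∈ S, Module.finrank K (KS (q : K) S z (bnd q S)) ≤ (q * S.card) ^ (S.card - 1)

/-- (S) implies that the kernels (with distinct `y`) span the box. -/
theorem box_le_W_of_SStmt [Fintype ι] {q : ℕ} (hq : 1 ≤ q) [Infinite K] {S : Finset ι}
    (hS : SStmt K q S) : box (K := K) (bnd q S) ≤ W K q S :=
  box_le_W hq fun z hz _ hg => T_surj hz (hS z hz) hg

/-! ### Literal form, variables indexed by a finite type `X` -/

section literal

variable {X' : Type*} [Fintype X'] [DecidableEq X']

/-- The kernel `∏_p (x_p - y_p)^(q-1) ∏_{j ≠ p} (x_p - y_j)^q`. -/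
noncomputable def PX (q : ℕ) (y : X' → K) : MvPolynomial X' K :=
  ∏ p : X', ((X p - C (y p)) ^ (q - 1) * ∏ j ∈ Finset.univ.erase p, (X p - C (y j)) ^ q)

theorem PX_eq (q : ℕ) (y : X' → K) : PX q y = P q Finset.univ y := by
  unfold PX P
  refine Finset.prod_congr rfl fun p _ => ?_
  rw [← Finset.mul_prod_erase Finset.univ _ (Finset.mem_univ p)]
  congr 1
  · simp [ex]
  · refine Finset.prod_congr rfl fun j hj => ?_
    simp [ex, (Finset.ne_of_mem_erase hj).symm]

/-- The variables of `X'` inside `Option X'`. -/
def SOpt (X' : Type*) [Fintype X'] : Finset (Option X') := Finset.univ.map Function.Embedding.some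

omit [DecidableEq X'] in
theorem card_SOpt : (SOpt X').card = Fintype.card X' := by
  simp [SOpt]

/-- **(K2), affine form**: given (S) for the active set `SOpt X'` (spare variable `none`),
the kernels with distinct `y` span all polynomials of degree at most `q d - 1` in every
variable, `d = #X'`. -/
theorem K2_of_SStmt {q : ℕ} (hq : 1 ≤ q) [Infinite K] (hS : SStmt K q (SOpt X'))
    (f : MvPolynomial X' K) (hf : f ∈ box (fun _ : X' => q * Fintype.card X')) :
    f ∈ Submodule.span K {g | ∃ y : X' → K, Function.Injective y ∧ g = PX q y} := by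
  let ρ : MvPolynomial (Option X') K →ₐ[K] MvPolynomial X' K :=
    aeval (fun o => o.elim 0 X)
  have hρ : ∀ g : MvPolynomial X' K, ρ (rename some g) = g := by
    intro g
    show aeval _ (rename some g) = g
    rw [aeval_rename]
    have : ((fun o : Option X' => (o.elim 0 X : MvPolynomial X' K)) ∘ some) = X := by
      funext i; rfl
    rw [this, aeval_X_left, AlgHom.id_apply]
  have hmem : rename some f ∈ box (K := K) (bnd q (SOpt X')) := by
    rw [mem_box_iff_degreeOf]
    rcases mem_box_iff_degreeOf.1 hf with h0 | h0
    · left; rw [h0, map_zero]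
    right
    intro i
    cases i with
    | none =>
      have h1 : (none : Option X') ∉ SOpt X' := by simp [SOpt]
      rw [bnd_of_notMem h1]
      have h2 : degreeOf none (rename some f) = 0 := by
        by_contra hne
        have hne' : none ∈ (rename some f).vars := mem_vars_iff_degreeOf_ne_zero.2 hne
        have := vars_rename some f hne'
        simp at this
      omega
    | some p =>
      have h1 : (some p : Option X') ∈ SOpt X' := by simp [SOpt]
      rw [bnd_of_mem h1, card_SOpt]
      have h2 : degreeOf (some p) (rename some f) = degreeOf p f :=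
        degreeOf_rename_of_injective (Option.some_injective _) p
      rw [h2]
      exact h0 p
  have h1 := box_le_W_of_SStmt hq hS hmem
  have h2 : f ∈ Submodule.map ρ.toLinearMap (W K q (SOpt X')) :=
    ⟨rename some f, h1, hρ f⟩
  unfold W at h2
  rw [Submodule.map_span] at h2
  refine Submodule.span_mono ?_ h2
  rintro g ⟨g', ⟨y, hy, rfl⟩, rfl⟩
  refine ⟨fun p => y (some p), ?_, ?_⟩
  · intro a b hab
    have := hy (show (some a : Option X') ∈ (SOpt X' : Set _) by simp [SOpt])
      (show (some b : Option X') ∈ (SOpt X' : Set _) by simp [SOpt]) hab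
    exact Option.some_injective _ this
  · rw [PX_eq]
    show ρ (P q (SOpt X') y) = _
    unfold P SOpt
    rw [Finset.prod_map, map_prod]
    refine Finset.prod_congr rfl fun a _ => ?_
    rw [Finset.prod_map, map_prod]
    refine Finset.prod_congr rfl fun b _ => ?_
    rw [map_pow, map_sub]
    have e1 : ρ (X (Function.Embedding.some a)) = X a := by
      show aeval _ (X (some a)) = _
      rw [aeval_X]; rfl
    have e2 : ∀ c : K, ρ (C c) = C c := by
      intro c
      show aeval _ (C c) = _
      rw [aeval_C]; rfl
    rw [e1, e2]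
    simp [ex]

end literal

end Vale.Agent.P181.H602
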