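import Vale.Agent.P181.H602.Dunkl

/-!
# Coefficient extraction, boxes of exponents and Dunkl operators
-/

namespace Vale.Agent.P181.H602

open MvPolynomial

variable {ι : Type*} [DecidableEq ι] {K : Type*} [Field K]

/-! ### Coefficient of `x_j^E` -/

/-- Polynomials as polynomials in `x_j` over the others. -/
noncomputable def iso (j : ι) : MvPolynomial ι K →ₐ[K] Polynomial (MvPolynomial ι K) :=
  aeval (fun l => if l = j then Polynomial.X else Polynomial.C (X l))

/-- The coefficient of `x_j^E`, a polynomial in the other variables. -/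
noncomputable def cf (j : ι) (E : ℕ) : MvPolynomial ι K →ₗ[K] MvPolynomial ι K where
  toFun f := (iso j f).coeff E
  map_add' f g := by rw [map_add, Polynomial.coeff_add]
  map_smul' c f := by
    rw [map_smul, RingHom.id_apply, Polynomial.coeff_smul]

theorem cf_apply (j : ι) (E : ℕ) (f : MvPolynomial ι K) : cf j E f = (iso j f).coeff E := rfl

theorem iso_X_self (j : ι) : iso j (X j : MvPolynomial ι K) = Polynomial.X := by
  simp [iso]

theorem iso_X_of_ne {j l : ι} (h : l ≠ j) :
    iso j (X l : MvPolynomial ι K) = Polynomial.C (X l) := by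
  simp [iso, h]

theorem iso_C (j : ι) (a : K) : iso j (C a : MvPolynomial ι K) = Polynomial.C (C a) := by
  simp only [iso, aeval_C]
  rfl

@[simp] theorem cf_C_mul (j : ι) (E : ℕ) (a : K) (f : MvPolynomial ι K) :
    cf j E (C a * f) = C a * cf j E f := by
  rw [← smul_eq_C_mul, map_smul, smul_eq_C_mul]

theorem cf_C (j : ι) (E : ℕ) (a : K) :
    cf j E (C a : MvPolynomial ι K) = if E = 0 then C a else 0 := by
  rw [cf_apply, iso_C, Polynomial.coeff_C]

theorem cf_X_mul_of_ne {j l : ι} (h : l ≠ j) (E : ℕ) (f : MvPolynomial ι K) :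
    cf j E (X l * f) = X l * cf j E f := by
  rw [cf_apply, cf_apply, map_mul, iso_X_of_ne h, Polynomial.coeff_C_mul]

theorem cf_X_mul_self_succ (j : ι) (E : ℕ) (f : MvPolynomial ι K) :
    cf j (E + 1) (X j * f) = cf j E f := by
  rw [cf_apply, cf_apply, map_mul, iso_X_self, Polynomial.coeff_X_mul]

theorem cf_X_mul_self_zero (j : ι) (f : MvPolynomial ι K) :
    cf j 0 (X j * f) = 0 := by
  rw [cf_apply, map_mul, iso_X_self, Polynomial.coeff_X_mul_zero]

omit [DecidableEq ι] in
/-- Induction principle. -/
theorem ind_X_mul {P : MvPolynomial ι K → Prop} (hC : ∀ a, P (C a))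
    (hadd : ∀ p q, P p → P q → P (p + q)) (hX : ∀ p i, P p → P (X i * p))
    (f : MvPolynomial ι K) : P f := by
  induction f using MvPolynomial.induction_on with
  | C a => exact hC a
  | add p q hp hq => exact hadd p q hp hq
  | mul_X p n hp => rw [mul_comm]; exact hX p n hp

/-- Coefficients of `cf`. -/
theorem coeff_cf (j : ι) (E : ℕ) (f : MvPolynomial ι K) (m : ι →₀ ℕ) :
    coeff m (cf j E f) = if m j = 0 then coeff (m + Finsupp.single j E) f else 0 := by
  induction f using ind_X_mul generalizing E m with
  | hC a =>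
    rw [cf_C]
    rcases eq_or_ne E 0 with h | h
    · subst h
      simp only [if_true, Finsupp.single_zero, add_zero, coeff_C]
      by_cases hm : 0 = m
      · subst hm; simp
      · simp [hm]
    · rw [if_neg h, coeff_zero, coeff_C]
      have : ¬ (0 = m + Finsupp.single j E) := by
        intro h'
        have := DFunLike.congr_fun h' j
        simp at this
        omega
      simp [this]
  | hadd p q hp hq =>
    rw [map_add, coeff_add, hp, hq, coeff_add]
    split_ifs <;> simp
  | hX p i hp =>
    rcases eq_or_ne i j with h | h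
    · subst h
      rcases Nat.eq_zero_or_pos E with hE | hE
      · subst hE
        rw [cf_X_mul_self_zero, coeff_zero, Finsupp.single_zero, add_zero]
        split_ifs with h0
        · rw [mul_comm, coeff_mul_X', if_neg]
          rw [Finsupp.mem_support_iff]; simpa using h0
        · rfl
      · obtain ⟨E, rfl⟩ : ∃ E', E = E' + 1 := ⟨E - 1, by omega⟩
        rw [cf_X_mul_self_succ, hp]
        split_ifs with h0
        · rw [Finsupp.single_add, ← add_assoc, mul_comm, coeff_mul_X]
        · rfl
    · rw [cf_X_mul_of_ne h, mul_comm (X i), coeff_mul_X', hp, mul_comm (X i), coeff_mul_X']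
      have e1 : (m - Finsupp.single i 1 : ι →₀ ℕ) j = m j := by
        simp [h]
      have e2 : (i ∈ (m + Finsupp.single j E).support) ↔ i ∈ m.support := by
        simp only [Finsupp.mem_support_iff, Finsupp.add_apply, Finsupp.single_apply,
          if_neg (Ne.symm h), add_zero]
      rw [e1]
      by_cases hi : i ∈ m.support
      · rw [if_pos hi, if_pos (e2.2 hi)]
        have e3 : m - Finsupp.single i 1 + Finsupp.single j E
            = m + Finsupp.single j E - Finsupp.single i 1 := by
          ext l
          have hi' : m i ≠ 0 := Finsupp.mem_support_iff.1 hi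
          simp only [Finsupp.coe_add, Finsupp.coe_tsub, Pi.add_apply, Pi.sub_apply,
            Finsupp.single_apply]
          by_cases hl : i = l
          · subst hl
            simp only [if_true, if_neg (Ne.symm h)]; omega
          · simp only [if_neg hl]; omega
        rw [e3]
      · rw [if_neg hi, if_neg (fun h' => hi (e2.1 h'))]
        simp

theorem mem_support_cf {j : ι} {E : ℕ} {f : MvPolynomial ι K} {m : ι →₀ ℕ} :
    m ∈ (cf j E f).support ↔ m j = 0 ∧ m + Finsupp.single j E ∈ f.support := by
  rw [mem_support_iff, coeff_cf, mem_support_iff]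
  by_cases h : m j = 0 <;> simp [h]

theorem cf_eq_zero_of_degreeOf_lt {j : ι} {E : ℕ} {f : MvPolynomial ι K}
    (h : degreeOf j f < E) : cf j E f = 0 := by
  ext m
  rw [coeff_cf, coeff_zero]
  split_ifs with h0
  · by_contra hc
    have h1 := monomial_le_degreeOf j (mem_support_iff.2 hc)
    simp [h0] at h1
    omega
  · rfl

/-- `cf` and permutations of the variables. -/
theorem rename_cf (σ : Equiv.Perm ι) (j : ι) (E : ℕ) (f : MvPolynomial ι K) :
    rename σ (cf j E f) = cf (σ j) E (rename σ f) := by
  induction f using ind_X_mul generalizing E with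
  | hC a => rw [cf_C, rename_C, cf_C]; split_ifs <;> simp
  | hadd p q hp hq => simp only [map_add, hp, hq]
  | hX p i hp =>
    rcases eq_or_ne i j with h | h
    · subst h
      rcases Nat.eq_zero_or_pos E with hE | hE
      · subst hE
        rw [cf_X_mul_self_zero, map_mul, rename_X, cf_X_mul_self_zero, map_zero]
      · obtain ⟨E, rfl⟩ : ∃ E', E = E' + 1 := ⟨E - 1, by omega⟩
        rw [cf_X_mul_self_succ, map_mul, rename_X, cf_X_mul_self_succ, hp]
    · rw [cf_X_mul_of_ne h, map_mul, rename_X, map_mul, rename_X,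
        cf_X_mul_of_ne (fun h' => h (σ.injective h')), hp]

theorem sw_cf_of_ne {i j l : ι} (h1 : l ≠ i) (h2 : l ≠ j) (E : ℕ) (f : MvPolynomial ι K) :
    sw i j (cf l E f) = cf l E (sw i j f) := by
  have := rename_cf (Equiv.swap i j) l E f
  rwa [Equiv.swap_apply_of_ne_of_ne h1 h2] at this

theorem sw_cf_left (i j : ι) (E : ℕ) (f : MvPolynomial ι K) :
    sw i j (cf i E f) = cf j E (sw i j f) := by
  have := rename_cf (Equiv.swap i j) i E f
  rwa [Equiv.swap_apply_left] at this

theorem sw_cf_right (i j : ι) (E : ℕ) (f : MvPolynomial ι K) :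
    sw i j (cf j E f) = cf i E (sw i j f) := by
  have := rename_cf (Equiv.swap i j) j E f
  rwa [Equiv.swap_apply_right] at this

/-- `cf` commutes with derivatives in the other variables. -/
theorem cf_pderiv_of_ne {i j : ι} (h : i ≠ j) (E : ℕ) (f : MvPolynomial ι K) :
    cf j E (pderiv i f) = pderiv i (cf j E f) := by
  induction f using ind_X_mul generalizing E with
  | hC a => rw [cf_C, pderiv_C]; split_ifs <;> simp
  | hadd p q hp hq => simp only [map_add, hp, hq]
  | hX p l hp =>
    rw [Derivation.leibniz, map_add]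
    simp only [smul_eq_mul]
    rcases eq_or_ne l j with h' | h'
    · subst h'
      rw [pderiv_X_of_ne h.symm, mul_zero, map_zero, add_zero]
      rcases Nat.eq_zero_or_pos E with hE | hE
      · subst hE
        rw [cf_X_mul_self_zero, cf_X_mul_self_zero, map_zero]
      · obtain ⟨E, rfl⟩ : ∃ E', E = E' + 1 := ⟨E - 1, by omega⟩
        rw [cf_X_mul_self_succ, cf_X_mul_self_succ, hp]
    · rw [cf_X_mul_of_ne h', cf_X_mul_of_ne h', Derivation.leibniz, hp]
      simp only [smul_eq_mul]
      congr 1
      rcases eq_or_ne l i with h'' | h''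
      · subst h''; rw [pderiv_X_self]; simp
      · rw [pderiv_X_of_ne h'']; simp

theorem cf_pderiv_self (j : ι) (E : ℕ) (f : MvPolynomial ι K) :
    cf j E (pderiv j f) = ((E : MvPolynomial ι K) + 1) * cf j (E + 1) f := by
  induction f using ind_X_mul generalizing E with
  | hC a => simp [cf_C]
  | hadd p q hp hq => simp only [map_add, hp, hq]; ring
  | hX p l hp =>
    rw [Derivation.leibniz, map_add]
    simp only [smul_eq_mul]
    rcases eq_or_ne l j with h' | h'
    · subst h'
      rw [pderiv_X_self, mul_one, cf_X_mul_self_succ]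
      rcases Nat.eq_zero_or_pos E with hE | hE
      · subst hE
        rw [cf_X_mul_self_zero]; simp
      · obtain ⟨E, rfl⟩ : ∃ E', E = E' + 1 := ⟨E - 1, by omega⟩
        rw [cf_X_mul_self_succ, hp]; push_cast; ring
    · rw [cf_X_mul_of_ne h', pderiv_X_of_ne h', cf_X_mul_of_ne h', hp]; simp; ring

/-- `cf_l` commutes with `dd_ij` for `l ≠ i, j`. -/
theorem cf_dd_of_ne {i j l : ι} (h1 : l ≠ i) (h2 : l ≠ j) (E : ℕ) (f : MvPolynomial ι K) :
    cf l E (dd i j f) = dd i j (cf l E f) := by
  rcases eq_or_ne i j with h | h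
  · subst h; simp [dd_self]
  · symm
    apply dd_eq_of h
    have := congrArg (cf l E) (mul_dd i j f)
    rw [sub_mul, map_sub, cf_X_mul_of_ne h1.symm, cf_X_mul_of_ne h2.symm, map_sub,
      ← sw_cf_of_ne h1 h2] at this
    rw [← this]; ring

/-! ### Boxes -/

/-- Polynomials with exponents strictly below `b`. -/
noncomputable def box (b : ι → ℕ) : Submodule K (MvPolynomial ι K) :=
  restrictSupport K {m : ι →₀ ℕ | ∀ i, m i < b i}

omit [DecidableEq ι] in
theorem mem_box {b : ι → ℕ} {f : MvPolynomial ι K} :
    f ∈ box b ↔ ∀ m ∈ f.support, ∀ i, m i < b i := by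
  unfold box
  rw [mem_restrictSupport_iff]
  rfl

omit [DecidableEq ι] in
theorem box_mono {b c : ι → ℕ} (h : ∀ i, b i ≤ c i) :
    box (K := K) b ≤ box c := by
  intro f hf
  rw [mem_box] at hf ⊢
  exact fun m hm i => lt_of_lt_of_le (hf m hm i) (h i)

omit [DecidableEq ι] in
theorem mem_box_iff_degreeOf {b : ι → ℕ} {f : MvPolynomial ι K} :
    f ∈ box b ↔ f = 0 ∨ ∀ i, degreeOf i f < b i := by
  constructor
  · intro h
    rcases eq_or_ne f 0 with h0 | h0
    · exact Or.inl h0
    · right
      intro i
      obtain ⟨m, hm⟩ := support_nonempty.2 h0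
      have hpos : 0 < b i := lt_of_le_of_lt (Nat.zero_le _) (mem_box.1 h m hm i)
      rw [degreeOf_lt_iff hpos]
      exact fun m hm => mem_box.1 h m hm i
  · rintro (h | h)
    · rw [h]; exact Submodule.zero_mem _
    · rw [mem_box]
      exact fun m hm i => lt_of_le_of_lt (monomial_le_degreeOf i hm) (h i)

/-- The leading coefficient lies in the box with one variable less. -/
theorem cf_mem_box {b : ι → ℕ} {f : MvPolynomial ι K} (hf : f ∈ box b) (j : ι) (E : ℕ) :
    cf j E f ∈ box (Function.update b j 1) := by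
  rw [mem_box] at hf ⊢
  intro m hm i
  rw [mem_support_cf] at hm
  rcases eq_or_ne i j with h | h
  · subst h
    rw [Function.update_self, hm.1]; exact Nat.one_pos
  · rw [Function.update_of_ne h]
    have := hf _ hm.2 i
    simpa [Finsupp.single_apply, Ne.symm h] using this

theorem mem_box_of_cf_eq_zero {b : ι → ℕ} {f : MvPolynomial ι K} (hf : f ∈ box b) {j : ι}
    {E : ℕ} (hb : b j = E + 1) (h0 : cf j E f = 0) :
    f ∈ box (Function.update b j E) := by
  rw [mem_box] at hf ⊢
  intro m hm i
  rcases eq_or_ne i j with h | h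
  · subst h
    rw [Function.update_self]
    have h1 := hf m hm i
    rw [hb] at h1
    by_contra hc
    have h2 : m i = E := by omega
    have h3 : m.erase i ∈ (cf i E f).support := by
      rw [mem_support_cf]
      refine ⟨Finsupp.erase_same, ?_⟩
      rw [← h2, Finsupp.erase_add_single]; exact hm
    rw [h0] at h3
    simp at h3
  · rw [Function.update_of_ne h]
    exact hf m hm i

theorem cf_eq_zero_of_mem_box {b : ι → ℕ} {f : MvPolynomial ι K} (hf : f ∈ box b) {j : ι}
    {E : ℕ} (hb : b j ≤ E) : cf j E f = 0 := by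
  rcases mem_box_iff_degreeOf.1 hf with h | h
  · rw [h, map_zero]
  · exact cf_eq_zero_of_degreeOf_lt (lt_of_lt_of_le (h j) hb)

/-! ### Degrees of divided differences -/

theorem degreeOf_sw (i j l : ι) (f : MvPolynomial ι K) :
    degreeOf l (sw i j f) = degreeOf (Equiv.swap i j l) f := by
  have h := degreeOf_rename_of_injective (p := f) (Equiv.swap i j).injective
    (Equiv.swap i j l)
  rw [Equiv.swap_apply_self] at h
  exact h

omit [DecidableEq ι] in
theorem degreeOf_X_sub_X_left {i j : ι} (h : i ≠ j) :
    degreeOf i (X i - X j : MvPolynomial ι K) = 1 := by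
  rw [sub_eq_add_neg, degreeOf_add_eq_of_degreeOf_lt, degreeOf_X_self]
  rw [degreeOf_neg, degreeOf_X_self, degreeOf_X_of_ne h]; exact Nat.one_pos

omit [DecidableEq ι] in
theorem degreeOf_X_sub_X_right {i j : ι} (h : i ≠ j) :
    degreeOf j (X i - X j : MvPolynomial ι K) = 1 := by
  rw [← neg_sub, degreeOf_neg, degreeOf_X_sub_X_left h.symm]

theorem degreeOf_dd_left {i j : ι} (h : i ≠ j) (f : MvPolynomial ι K) :
    degreeOf i (dd i j f) ≤ max (degreeOf i f) (degreeOf j f) - 1 := by
  rcases eq_or_ne (dd i j f) 0 with h0 | h0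
  · rw [h0]; simp
  · have h1 := degreeOf_mul_eq (n := i) (X_sub_X_ne_zero (K := K) h) h0
    rw [mul_dd, degreeOf_X_sub_X_left h] at h1
    have h2 := degreeOf_sub_le i f (sw i j f)
    rw [degreeOf_sw, Equiv.swap_apply_left] at h2
    omega

theorem degreeOf_dd_right {i j : ι} (h : i ≠ j) (f : MvPolynomial ι K) :
    degreeOf j (dd i j f) ≤ max (degreeOf i f) (degreeOf j f) - 1 := by
  rw [dd_comm, degreeOf_neg, max_comm]
  exact degreeOf_dd_left h.symm f

theorem degreeOf_dd_of_ne {i j l : ι} (h1 : l ≠ i) (h2 : l ≠ j) (f : MvPolynomial ι K) :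
    degreeOf l (dd i j f) ≤ degreeOf l f := by
  rcases eq_or_ne i j with h | h
  · subst h; rw [dd_self]; simp
  rcases eq_or_ne (dd i j f) 0 with h0 | h0
  · rw [h0]; simp
  · have h3 := degreeOf_mul_eq (n := l) (X_sub_X_ne_zero (K := K) h) h0
    rw [mul_dd] at h3
    have h4 := degreeOf_sub_le l f (sw i j f)
    rw [degreeOf_sw, Equiv.swap_apply_of_ne_of_ne h1 h2, max_self] at h4
    omega

/-- The top coefficient in `x_j` of `T_i f`, `i ≠ j`. -/
theorem cf_T_of_ne (q : K) (S : Finset ι) {i j : ι} (hij : i ≠ j) {E : ℕ}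
    {f : MvPolynomial ι K} (hi : degreeOf i f ≤ E) (hj : degreeOf j f ≤ E) :
    cf j E (T q S i f) = T q (S.erase j) i (cf j E f) := by
  rw [T_apply, T_apply, map_sub, cf_C_mul, cf_pderiv_of_ne hij, map_sum]
  congr 2
  by_cases hjS : j ∈ S.erase i
  · rw [← Finset.add_sum_erase _ _ hjS]
    have h0 : cf j E (dd i j f) = 0 := by
      rcases Nat.eq_zero_or_pos E with hE | hE
      · subst hE
        have : dd i j f = 0 := by
          by_contra hne
          have h1 := degreeOf_mul_eq (n := i) (X_sub_X_ne_zero (K := K) hij) hne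
          rw [mul_dd, degreeOf_X_sub_X_left hij] at h1
          have h2 := degreeOf_sub_le i f (sw i j f)
          rw [degreeOf_sw, Equiv.swap_apply_left] at h2
          omega
        rw [this, map_zero]
      · apply cf_eq_zero_of_degreeOf_lt
        have := degreeOf_dd_right hij f
        omega
    rw [h0, zero_add]
    have h1 : (S.erase i).erase j = (S.erase j).erase i := Finset.erase_right_comm
    rw [h1]
    refine Finset.sum_congr rfl fun l hl => ?_
    have hli : l ≠ i := Finset.ne_of_mem_erase hl
    have hlj : l ≠ j := Finset.ne_of_mem_erase (Finset.mem_of_mem_erase hl)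
    exact cf_dd_of_ne hij.symm hlj.symm E f
  · have hjS' : j ∉ S := fun h => hjS (Finset.mem_erase.2 ⟨hij.symm, h⟩)
    rw [Finset.erase_eq_of_notMem hjS']
    refine Finset.sum_congr rfl fun l hl => ?_
    have hli : l ≠ i := Finset.ne_of_mem_erase hl
    have hlj : l ≠ j := by
      rintro rfl; exact hjS hl
    exact cf_dd_of_ne hij.symm hlj.symm E f

/-- For an inactive variable `cf` commutes with all Dunkl operators. -/
theorem cf_T_of_notMem (q : K) (S : Finset ι) {i j : ι} (hij : i ≠ j) (hjS : j ∉ S) (E : ℕ)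
    (f : MvPolynomial ι K) :
    cf j E (T q S i f) = T q S i (cf j E f) := by
  rw [T_apply, T_apply, map_sub, cf_C_mul, cf_pderiv_of_ne hij, map_sum]
  congr 2
  refine Finset.sum_congr rfl fun l hl => ?_
  have hlj : l ≠ j := by
    rintro rfl; exact hjS (Finset.mem_of_mem_erase hl)
  exact cf_dd_of_ne hij.symm hlj.symm E f

/-- The top coefficient of `dd_zj f` in `x_z`. -/
theorem cf_dd_top {z j : ι} (h : z ≠ j) {E : ℕ} {f : MvPolynomial ι K}
    (hz : degreeOf z f ≤ E + 1) (hj : degreeOf j f ≤ E + 1) :
    cf z E (dd z j f) = cf z (E + 1) f - sw z j (cf j (E + 1) f) := by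
  have h1 := congrArg (cf z (E + 1)) (mul_dd z j f)
  rw [sub_mul, map_sub, cf_X_mul_self_succ, cf_X_mul_of_ne h.symm, map_sub,
    ← sw_cf_right z j] at h1
  have h2 : cf z (E + 1) (dd z j f) = 0 := by
    apply cf_eq_zero_of_degreeOf_lt
    have := degreeOf_dd_left h f
    omega
  rw [h2, mul_zero, sub_zero] at h1
  exact h1

/-- The top coefficient in `x_z` of `T_z f`. -/
theorem cf_T_top (q : K) (S : Finset ι) (z : ι) {E : ℕ} {f : MvPolynomial ι K}
    (hz : degreeOf z f ≤ E + 1) (hj : ∀ j ∈ S.erase z, degreeOf j f ≤ E + 1) :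
    cf z E (T q S z f) = C ((E : K) + 1 - q * (S.erase z).card) * cf z (E + 1) f
      + C q * ∑ j ∈ S.erase z, sw z j (cf j (E + 1) f) := by
  rw [T_apply, map_sub, cf_C_mul, cf_pderiv_self, map_sum]
  have h1 : ∑ l ∈ S.erase z, cf z E (dd z l f)
      = (S.erase z).card * cf z (E + 1) f - ∑ j ∈ S.erase z, sw z j (cf j (E + 1) f) := by
    rw [Finset.sum_congr rfl fun l hl =>
      cf_dd_top (Finset.ne_of_mem_erase hl).symm hz (hj l hl), Finset.sum_sub_distrib,
      Finset.sum_const, nsmul_eq_mul]
  rw [h1]
  simp only [map_add, map_sub, map_mul, C_1, map_natCast]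
  ring

/-! ### Dunkl operators and boxes -/

omit [DecidableEq ι] in
theorem degreeOf_pderiv_self (i : ι) (f : MvPolynomial ι K) :
    degreeOf i (pderiv i f) ≤ degreeOf i f - 1 := by
  rw [degreeOf_le_iff]
  intro m hm
  rw [mem_support_iff] at hm
  have h1 : coeff (m + Finsupp.single i 1) f ≠ 0 := by
    intro h0
    apply hm
    rw [coeff_pderiv, h0, zero_mul]
  have := monomial_le_degreeOf i (mem_support_iff.2 h1)
  simp at this
  omega

omit [DecidableEq ι] in
theorem degreeOf_pderiv_le (i l : ι) (f : MvPolynomial ι K) :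
    degreeOf l (pderiv i f) ≤ degreeOf l f := by
  rw [degreeOf_le_iff]
  intro m hm
  rw [mem_support_iff] at hm
  have h1 : coeff (m + Finsupp.single i 1) f ≠ 0 := by
    intro h0
    apply hm
    rw [coeff_pderiv, h0, zero_mul]
  have := monomial_le_degreeOf l (mem_support_iff.2 h1)
  simp at this
  omega

theorem pderiv_mem_box {b : ι → ℕ} {f : MvPolynomial ι K} (hf : f ∈ box b) (z : ι) :
    pderiv z f ∈ box (Function.update b z (b z - 1)) := by
  rw [mem_box] at hf ⊢
  intro m hm i
  rw [mem_support_iff] at hm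
  have h1 : coeff (m + Finsupp.single z 1) f ≠ 0 := by
    intro h0
    apply hm
    rw [coeff_pderiv, h0, zero_mul]
  have h2 := hf _ (mem_support_iff.2 h1) i
  rcases eq_or_ne i z with h | h
  · subst h
    rw [Function.update_self]
    simp at h2
    omega
  · rw [Function.update_of_ne h]
    simpa [Finsupp.single_apply, Ne.symm h] using h2

theorem dd_mem_box {b : ι → ℕ} {f : MvPolynomial ι K} (hf : f ∈ box b) {z j : ι} (h : z ≠ j)
    (h1 : b j ≤ b z) (h2 : b z ≤ b j + 1) :
    dd z j f ∈ box (Function.update b z (b z - 1)) := by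
  rcases eq_or_ne (dd z j f) 0 with h0 | h0
  · rw [h0]; exact Submodule.zero_mem _
  rcases mem_box_iff_degreeOf.1 hf with hf0 | hfd
  · exact absurd (by rw [hf0, map_zero]) h0
  rw [mem_box_iff_degreeOf]
  right
  intro l
  have hz := hfd z
  have hj := hfd j
  rcases eq_or_ne l z with hl | hl
  · subst hl
    rw [Function.update_self]
    have h3 := degreeOf_mul_eq (n := l) (X_sub_X_ne_zero (K := K) h) h0
    rw [mul_dd, degreeOf_X_sub_X_left h] at h3
    have h4 := degreeOf_sub_le l f (sw l j f)
    rw [degreeOf_sw, Equiv.swap_apply_left] at h4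
    omega
  · rw [Function.update_of_ne hl]
    rcases eq_or_ne l j with hl' | hl'
    · subst hl'
      have h3 := degreeOf_mul_eq (n := l) (X_sub_X_ne_zero (K := K) h) h0
      rw [mul_dd, degreeOf_X_sub_X_right h] at h3
      have h4 := degreeOf_sub_le l f (sw z l f)
      rw [degreeOf_sw, Equiv.swap_apply_right] at h4
      omega
    · exact lt_of_le_of_lt (degreeOf_dd_of_ne hl hl' f) (hfd l)

/-- `T_z` lowers the bound of `x_z` by one, if the other active bounds are equal to it or
one less. -/
theorem T_mem_box (q : K) (S : Finset ι) (z : ι) {b : ι → ℕ} {f : MvPolynomial ι K}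
    (hf : f ∈ box b) (h : ∀ j ∈ S.erase z, b j ≤ b z ∧ b z ≤ b j + 1) :
    T q S z f ∈ box (Function.update b z (b z - 1)) := by
  rw [T_apply, ← smul_eq_C_mul]
  refine Submodule.sub_mem _ (pderiv_mem_box hf z) (Submodule.smul_mem _ _ ?_)
  refine Submodule.sum_mem _ fun j hj => ?_
  exact dd_mem_box hf (Finset.ne_of_mem_erase hj).symm (h j hj).1 (h j hj).2

/-! ### Homogeneous components -/

omit [DecidableEq ι] in
theorem hc_X_mul (n : ℕ) (i : ι) (f : MvPolynomial ι K) :
    homogeneousComponent (n + 1) (X i * f) = X i * homogeneousComponent n f := by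
  classical
  ext m
  rw [coeff_homogeneousComponent, mul_comm, coeff_mul_X', mul_comm, coeff_mul_X',
    coeff_homogeneousComponent]
  by_cases hi : i ∈ m.support
  · rw [if_pos hi, if_pos hi]
    have h1 : (m - Finsupp.single i 1).degree + 1 = m.degree := by
      have h2 : m - Finsupp.single i 1 + Finsupp.single i 1 = m := by
        apply tsub_add_cancel_of_le
        rw [Finsupp.single_le_iff]
        exact Nat.one_le_iff_ne_zero.2 (Finsupp.mem_support_iff.1 hi)
      calc (m - Finsupp.single i 1).degree + 1
          = (m - Finsupp.single i 1 + Finsupp.single i 1).degree := by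
            rw [map_add, Finsupp.degree_single]
        _ = m.degree := by rw [h2]
    rw [← h1]
    simp
  · rw [if_neg hi, if_neg hi]; simp

theorem hc_dd (n : ℕ) (i j : ι) (f : MvPolynomial ι K) :
    homogeneousComponent n (dd i j f) = dd i j (homogeneousComponent (n + 1) f) := by
  rcases eq_or_ne i j with h | h
  · subst h; simp [dd_self]
  · symm
    apply dd_eq_of h
    have h1 := congrArg (homogeneousComponent (n + 1)) (mul_dd i j f)
    rw [sub_mul, map_sub, hc_X_mul, hc_X_mul, map_sub] at h1
    rw [sub_mul, h1]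
    congr 1
    exact (rename_homogeneousComponent (n + 1) f).symm

omit [DecidableEq ι] in
theorem hc_pderiv (n : ℕ) (i : ι) (f : MvPolynomial ι K) :
    homogeneousComponent n (pderiv i f) = pderiv i (homogeneousComponent (n + 1) f) := by
  ext m
  rw [coeff_homogeneousComponent, coeff_pderiv, coeff_pderiv, coeff_homogeneousComponent]
  have : (m + Finsupp.single i 1).degree = m.degree + 1 := by
    rw [map_add, Finsupp.degree_single]
  rw [this]
  by_cases h : m.degree = n <;> simp [h]

/-- Dunkl operators have degree `-1`. -/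
theorem hc_T (q : K) (S : Finset ι) (n : ℕ) (i : ι) (f : MvPolynomial ι K) :
    homogeneousComponent n (T q S i f) = T q S i (homogeneousComponent (n + 1) f) := by
  rw [T_apply, T_apply, map_sub, homogeneousComponent_C_mul, map_sum, hc_pderiv]
  congr 2
  exact Finset.sum_congr rfl fun l _ => hc_dd n i l f

omit [DecidableEq ι] in
theorem hc_mem_box {b : ι → ℕ} {f : MvPolynomial ι K} (hf : f ∈ box b) (n : ℕ) :
    homogeneousComponent n f ∈ box b := by
  rw [mem_box] at hf ⊢
  intro m hm
  rw [support_homogeneousComponent, Finset.mem_filter] at hm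
  exact hf m hm.1

theorem T_hc_eq_zero (q : K) (S : Finset ι) (n : ℕ) (i : ι) {f : MvPolynomial ι K}
    (h : T q S i f = 0) : T q S i (homogeneousComponent n f) = 0 := by
  cases n with
  | zero => rw [homogeneousComponent_zero, T_C]
  | succ n => rw [← hc_T, h, map_zero]

theorem hc_cf (n : ℕ) (j : ι) (E : ℕ) (f : MvPolynomial ι K) :
    homogeneousComponent n (cf j E f) = cf j E (homogeneousComponent (n + E) f) := by
  ext m
  rw [coeff_homogeneousComponent, coeff_cf, coeff_cf, coeff_homogeneousComponent]
  have : (m + Finsupp.single j E).degree = m.degree + E := by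
    rw [map_add, Finsupp.degree_single]
  rw [this]
  by_cases h : m.degree = n <;> simp [h]

/-! ### Dimensions -/

section dim

variable [Fintype ι]

omit [DecidableEq ι] in
theorem finite_box_index (b : ι → ℕ) : Finite {m : ι →₀ ℕ | ∀ i, m i < b i} := by
  refine Finite.of_injective (β := ∀ i, Fin (b i)) (fun m i => ⟨m.1 i, m.2 i⟩) ?_
  intro m m' h
  apply Subtype.ext
  ext i
  have := congrFun h i
  simpa using this

instance finite_box (b : ι → ℕ) : Module.Finite K (box (K := K) b) := by
  have := finite_box_index b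
  exact Module.Finite.of_basis (basisRestrictSupport K {m : ι →₀ ℕ | ∀ i, m i < b i})

omit [DecidableEq ι] in
theorem finrank_box (b : ι → ℕ) : Module.finrank K (box (K := K) b) = ∏ i, b i := by
  have := finite_box_index b
  have e : {m : ι →₀ ℕ | ∀ i, m i < b i} ≃ (∀ i, Fin (b i)) :=
    { toFun := fun m i => ⟨m.1 i, m.2 i⟩
      invFun := fun g => ⟨Finsupp.equivFunOnFinite.symm (fun i => (g i : ℕ)), fun i => (g i).2⟩
      left_inv := fun m => by
        apply Subtype.ext
        ext i
        simp
      right_inv := fun g => by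
        funext i
        apply Fin.ext
        simp }
  have h1 := Module.finrank_eq_nat_card_basis
    (basisRestrictSupport K {m : ι →₀ ℕ | ∀ i, m i < b i})
  unfold box
  rw [h1, Nat.card_congr e, Nat.card_pi]
  simp

/-- Kernel of `T_z` in a box. -/
noncomputable def KS (q : K) (S : Finset ι) (z : ι) (b : ι → ℕ) :
    Submodule K (MvPolynomial ι K) := LinearMap.ker (T q S z) ⊓ box b

omit [Fintype ι] in
theorem mem_KS {q : K} {S : Finset ι} {z : ι} {b : ι → ℕ} {f : MvPolynomial ι K} :
    f ∈ KS q S z b ↔ T q S z f = 0 ∧ f ∈ box b := by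
  unfold KS
  rw [Submodule.mem_inf, LinearMap.mem_ker]

omit [Fintype ι] in
theorem KS_mono (q : K) (S : Finset ι) (z : ι) {b c : ι → ℕ} (h : ∀ i, b i ≤ c i) :
    KS q S z b ≤ KS q S z c := fun _ hf =>
  mem_KS.2 ⟨(mem_KS.1 hf).1, box_mono h (mem_KS.1 hf).2⟩

instance finite_KS (q : K) (S : Finset ι) (z : ι) (b : ι → ℕ) : Module.Finite K (KS q S z b) :=
  Submodule.finiteDimensional_of_le (show KS q S z b ≤ box b from inf_le_right)

omit [DecidableEq ι] [Fintype ι] in
/-- Dimension count for a linear map on a subspace. -/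
theorem finrank_le_add {A B C : Submodule K (MvPolynomial ι K)} [Module.Finite K A]
    [Module.Finite K B] [Module.Finite K C]
    (L : MvPolynomial ι K →ₗ[K] MvPolynomial ι K) (h1 : ∀ f ∈ A, L f = 0 → f ∈ B)
    (h2 : ∀ f ∈ A, L f ∈ C) :
    Module.finrank K A ≤ Module.finrank K B + Module.finrank K C := by
  let L' : A →ₗ[K] C := (L.restrict h2)
  have h3 := LinearMap.finrank_range_add_finrank_ker L'
  have h4 : Module.finrank K (LinearMap.range L') ≤ Module.finrank K C :=
    Submodule.finrank_le _
  have h5 : Module.finrank K (LinearMap.ker L') ≤ Module.finrank K B := by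
    let M : LinearMap.ker L' →ₗ[K] B :=
      { toFun := fun x => ⟨x.1.1, h1 _ x.1.2 (by
          have := x.2
          rw [LinearMap.mem_ker] at this
          exact congrArg Subtype.val this)⟩
        map_add' := fun x y => rfl
        map_smul' := fun c x => rfl }
    apply LinearMap.finrank_le_finrank_of_injective (f := M)
    intro x y hxy
    apply Subtype.ext
    apply Subtype.ext
    exact congrArg (fun w : B => (w : MvPolynomial ι K)) hxy
  omega

/-- Leading coefficient in `x_j`. -/
theorem finrank_KS_le (q : K) (S : Finset ι) {z j : ι} (hj : j ≠ z) {b : ι → ℕ}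
    {E : ℕ} (hbj : b j = E + 1) (hbz : b z ≤ E + 1) :
    Module.finrank K (KS q S z b) ≤ Module.finrank K (KS q S z (Function.update b j E))
      + Module.finrank K (KS q (S.erase j) z (Function.update b j 1)) := by
  apply finrank_le_add (cf j E)
  · intro f hf h0
    rw [mem_KS] at hf ⊢
    exact ⟨hf.1, mem_box_of_cf_eq_zero hf.2 hbj h0⟩
  · intro f hf
    rw [mem_KS] at hf ⊢
    refine ⟨?_, cf_mem_box hf.2 j E⟩
    rcases mem_box_iff_degreeOf.1 hf.2 with h | h
    · rw [h, map_zero, map_zero]
    · rw [← cf_T_of_ne q S hj.symm, hf.1, map_zero]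
      · have := h z; omega
      · have := h j; omega

omit [Fintype ι] in
/-- Leading coefficient in `x_z`, nonresonant case. -/
theorem KS_eq_of_ne (q : K) (S : Finset ι) {z : ι} {b : ι → ℕ}
    {E : ℕ} (hbz : b z = E + 2) (hb : ∀ j ∈ S.erase z, b j ≤ E + 1)
    (hq : (E : K) + 1 - q * (S.erase z).card ≠ 0) :
    KS q S z b = KS q S z (Function.update b z (E + 1)) := by
  apply le_antisymm
  · intro f hf
    rw [mem_KS] at hf ⊢
    refine ⟨hf.1, ?_⟩
    rcases mem_box_iff_degreeOf.1 hf.2 with h | h
    · rw [h]; exact Submodule.zero_mem _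
    apply mem_box_of_cf_eq_zero hf.2 hbz
    have h1 := cf_T_top q S z (E := E) (f := f) (by have := h z; omega)
      (fun j hj => by have := h j; have := hb j hj; omega)
    rw [hf.1, map_zero] at h1
    have h2 : ∑ j ∈ S.erase z, sw z j (cf j (E + 1) f) = 0 := by
      refine Finset.sum_eq_zero fun j hj => ?_
      rw [cf_eq_zero_of_mem_box hf.2 (hb j hj), map_zero]
    rw [h2, mul_zero, add_zero] at h1
    rcases mul_eq_zero.1 h1.symm with h3 | h3
    · exact absurd (C_eq_zero.1 h3) hq
    · exact h3
  · apply KS_mono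
    intro i
    rcases eq_or_ne i z with h | h
    · subst h; rw [Function.update_self]; omega
    · rw [Function.update_of_ne h]

/-- Leading coefficient in `x_z`, general case. -/
theorem finrank_KS_le_top (q : K) (S : Finset ι) {z : ι} {b : ι → ℕ}
    {E : ℕ} (hbz : b z = E + 1) :
    Module.finrank K (KS q S z b) ≤ Module.finrank K (KS q S z (Function.update b z E))
      + Module.finrank K (box (K := K) (Function.update b z 1)) := by
  apply finrank_le_add (cf z E)
  · intro f hf h0
    rw [mem_KS] at hf ⊢
    exact ⟨hf.1, mem_box_of_cf_eq_zero hf.2 hbz h0⟩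
  · intro f hf
    rw [mem_KS] at hf
    exact cf_mem_box hf.2 z E

end dim

end Vale.Agent.P181.H602
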