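import Mathlib

/-!
# Dunkl operators of type A at `k = -q` on multivariate polynomials

`ι` is any type of variables, `S : Finset ι` the set of active variables.
-/

namespace Vale.Agent.P181.H602

open MvPolynomial

variable {ι : Type*} [DecidableEq ι] {K : Type*} [Field K]

/-- Exchange of two variables. -/
noncomputable def sw (i j : ι) : MvPolynomial ι K →ₐ[K] MvPolynomial ι K :=
  rename (Equiv.swap i j)

theorem sw_X (i j l : ι) : sw i j (X l : MvPolynomial ι K) = X (Equiv.swap i j l) := by
  simp [sw]

@[simp] theorem sw_X_left (i j : ι) : sw i j (X i : MvPolynomial ι K) = X j := by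
  simp [sw]

@[simp] theorem sw_X_right (i j : ι) : sw i j (X j : MvPolynomial ι K) = X i := by
  simp [sw]

theorem sw_X_of_ne {i j l : ι} (h1 : l ≠ i) (h2 : l ≠ j) :
    sw i j (X l : MvPolynomial ι K) = X l := by
  simp [sw, Equiv.swap_apply_of_ne_of_ne h1 h2]

@[simp] theorem sw_sw (i j : ι) (f : MvPolynomial ι K) : sw i j (sw i j f) = f := by
  simp only [sw, rename_rename]
  have : (Equiv.swap i j : ι → ι) ∘ (Equiv.swap i j : ι → ι) = id := by
    funext x; simp
  rw [this, rename_id_apply]

theorem sw_self (i : ι) (f : MvPolynomial ι K) : sw i i f = f := by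
  have : (Equiv.swap i i : ι → ι) = id := by
    funext x; simp
  simp only [sw, this, rename_id_apply]

theorem sw_comm (i j : ι) (f : MvPolynomial ι K) : sw i j f = sw j i f := by
  simp only [sw, Equiv.swap_comm]

omit [DecidableEq ι] in
theorem X_sub_X_ne_zero {i j : ι} (h : i ≠ j) : (X i - X j : MvPolynomial ι K) ≠ 0 := by
  rw [sub_ne_zero]
  intro h'
  exact h (X_injective h')

theorem X_sub_X_dvd (i j : ι) (f : MvPolynomial ι K) : (X i - X j) ∣ f - sw i j f := by
  induction f using MvPolynomial.induction_on with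
  | C a => simp [sw]
  | add p q hp hq =>
    have : p + q - sw i j (p + q) = (p - sw i j p) + (q - sw i j q) := by
      rw [map_add]; ring
    rw [this]
    exact dvd_add hp hq
  | mul_X p n hp =>
    have : p * X n - sw i j (p * X n) = (p - sw i j p) * X n + sw i j p * (X n - sw i j (X n)) := by
      rw [map_mul]; ring
    rw [this]
    refine dvd_add (Dvd.dvd.mul_right hp _) (Dvd.dvd.mul_left ?_ _)
    rw [sw_X]
    rcases eq_or_ne n i with h | h
    · subst h; simp
    · rcases eq_or_ne n j with h' | h'
      · subst h'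
        rw [Equiv.swap_apply_right]
        exact ⟨-1, by ring⟩
      · rw [Equiv.swap_apply_of_ne_of_ne h h']; simp

open Classical in
/-- The function `(f - s_{ij} f)/(x_i - x_j)` (`0` for `i = j`). -/
noncomputable def ddFun (i j : ι) (f : MvPolynomial ι K) : MvPolynomial ι K :=
  if i = j then 0 else Classical.choose (X_sub_X_dvd i j f)

theorem mul_ddFun (i j : ι) (f : MvPolynomial ι K) :
    (X i - X j) * ddFun i j f = f - sw i j f := by
  unfold ddFun
  split_ifs with h
  · subst h; simp [sw_self]
  · exact (Classical.choose_spec (X_sub_X_dvd i j f)).symm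

/-- The divided difference `(f - s_{ij} f)/(x_i - x_j)` as a linear map (`0` for `i = j`). -/
noncomputable def dd (i j : ι) : MvPolynomial ι K →ₗ[K] MvPolynomial ι K where
  toFun := ddFun i j
  map_add' f g := by
    rcases eq_or_ne i j with h | h
    · simp [ddFun, h]
    · apply mul_left_cancel₀ (X_sub_X_ne_zero h)
      rw [mul_add, mul_ddFun, mul_ddFun, mul_ddFun, map_add]; ring
  map_smul' c f := by
    rcases eq_or_ne i j with h | h
    · simp [ddFun, h]
    · apply mul_left_cancel₀ (X_sub_X_ne_zero h)
      rw [RingHom.id_apply, mul_smul_comm, mul_ddFun, mul_ddFun, map_smul, smul_sub]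

/-- Defining property of `dd`. -/
theorem mul_dd (i j : ι) (f : MvPolynomial ι K) :
    (X i - X j) * dd i j f = f - sw i j f := mul_ddFun i j f

theorem dd_self (i : ι) (f : MvPolynomial ι K) : dd i i f = 0 := by
  show ddFun i i f = 0
  simp [ddFun]

/-- Characterization of `dd`. -/
theorem dd_eq_of {i j : ι} (h : i ≠ j) {f g : MvPolynomial ι K}
    (hg : (X i - X j) * g = f - sw i j f) : dd i j f = g := by
  apply mul_left_cancel₀ (X_sub_X_ne_zero h)
  rw [mul_dd, hg]

theorem dd_comm (i j : ι) (f : MvPolynomial ι K) : dd i j f = - dd j i f := by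
  rcases eq_or_ne i j with h | h
  · subst h; simp [dd_self]
  · apply dd_eq_of h
    have := mul_dd j i f
    rw [sw_comm i j, ← this]; ring

theorem sw_dd (i j : ι) (f : MvPolynomial ι K) : sw i j (dd i j f) = dd i j f := by
  rcases eq_or_ne i j with h | h
  · subst h; simp [dd_self]
  · apply mul_left_cancel₀ (X_sub_X_ne_zero h)
    have h1 := congrArg (sw i j) (mul_dd i j f)
    rw [map_mul, map_sub, map_sub, sw_X_left, sw_X_right, sw_sw] at h1
    rw [mul_dd]
    linear_combination -h1

/-- Twisted Leibniz rule. -/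
theorem dd_mul (i j : ι) (f g : MvPolynomial ι K) :
    dd i j (f * g) = dd i j f * g + sw i j f * dd i j g := by
  rcases eq_or_ne i j with h | h
  · subst h; simp [dd_self]
  · apply dd_eq_of h
    rw [map_mul]
    have h1 := mul_dd i j f
    have h2 := mul_dd i j g
    linear_combination g * h1 + sw i j f * h2

/-- `dd` kills symmetric functions and is linear over them. -/
theorem dd_eq_zero {i j : ι} {f : MvPolynomial ι K} (hf : sw i j f = f) : dd i j f = 0 := by
  rcases eq_or_ne i j with h | h
  · subst h; simp [dd_self]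
  · apply dd_eq_of h
    rw [hf]; ring

theorem dd_mul_left {i j : ι} {f : MvPolynomial ι K} (hf : sw i j f = f) (g : MvPolynomial ι K) :
    dd i j (f * g) = f * dd i j g := by
  rw [dd_mul, dd_eq_zero hf, hf]; ring

theorem dd_X_left {i j : ι} (h : i ≠ j) : dd i j (X i : MvPolynomial ι K) = 1 := by
  apply dd_eq_of h; simp

theorem dd_X_right {i j : ι} (h : i ≠ j) : dd i j (X j : MvPolynomial ι K) = -1 := by
  apply dd_eq_of h; simp

theorem dd_X_of_ne {i j l : ι} (h1 : l ≠ i) (h2 : l ≠ j) :
    dd i j (X l : MvPolynomial ι K) = 0 :=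
  dd_eq_zero (sw_X_of_ne h1 h2)

@[simp] theorem dd_C (i j : ι) (a : K) : dd i j (C a : MvPolynomial ι K) = 0 :=
  dd_eq_zero (by simp [sw])

@[simp] theorem dd_one (i j : ι) : dd i j (1 : MvPolynomial ι K) = 0 :=
  dd_eq_zero (by simp [sw])

/-- `[dd_ij, x_i] = s_ij`. -/
theorem dd_X_left_mul {i j : ι} (h : i ≠ j) (f : MvPolynomial ι K) :
    dd i j (X i * f) = X i * dd i j f + sw i j f := by
  rw [dd_mul, dd_X_left h, sw_X_left]
  linear_combination - mul_dd i j f

/-- `[dd_ij, x_j] = - s_ij`. -/
theorem dd_X_right_mul {i j : ι} (h : i ≠ j) (f : MvPolynomial ι K) :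
    dd i j (X j * f) = X j * dd i j f - sw i j f := by
  rw [dd_mul, dd_X_right h, sw_X_right]
  linear_combination mul_dd i j f

theorem dd_X_of_ne_mul {i j l : ι} (h1 : l ≠ i) (h2 : l ≠ j) (f : MvPolynomial ι K) :
    dd i j (X l * f) = X l * dd i j f :=
  dd_mul_left (sw_X_of_ne h1 h2) f

/-- Conjugation by a permutation of the variables. -/
theorem rename_dd (σ : Equiv.Perm ι) (i j : ι) (f : MvPolynomial ι K) :
    rename σ (dd i j f) = dd (σ i) (σ j) (rename σ f) := by
  rcases eq_or_ne i j with h | h
  · subst h; simp [dd_self]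
  · symm
    apply dd_eq_of (fun h' => h (σ.injective h'))
    have h1 := congrArg (rename σ) (mul_dd i j f)
    rw [map_mul, map_sub, map_sub, rename_X, rename_X] at h1
    have h2 : ((Equiv.swap (σ i) (σ j) : Equiv.Perm ι) : ι → ι) ∘ σ
        = σ ∘ (Equiv.swap i j : Equiv.Perm ι) := by
      funext x
      simp only [Function.comp_apply]
      rw [Equiv.swap_apply_def, Equiv.swap_apply_def]
      simp only [EmbeddingLike.apply_eq_iff_eq]
      split_ifs <;> rfl
    rw [h1]
    simp only [sw, rename_rename, h2]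

/-- The Dunkl operator `∂_i - q Σ_{j ∈ S, j ≠ i} (1 - s_ij)/(x_i - x_j)`. -/
noncomputable def T (q : K) (S : Finset ι) (i : ι) : MvPolynomial ι K →ₗ[K] MvPolynomial ι K :=
  (pderiv i).toLinearMap - q • ∑ j ∈ S.erase i, dd i j

theorem T_apply (q : K) (S : Finset ι) (i : ι) (f : MvPolynomial ι K) :
    T q S i f = pderiv i f - C q * ∑ j ∈ S.erase i, dd i j f := by
  simp [T, LinearMap.sub_apply, LinearMap.smul_apply, LinearMap.sum_apply, smul_eq_C_mul]

@[simp] theorem T_C (q : K) (S : Finset ι) (i : ι) (a : K) :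
    T q S i (C a : MvPolynomial ι K) = 0 := by
  simp [T_apply]

@[simp] theorem T_one (q : K) (S : Finset ι) (i : ι) :
    T q S i (1 : MvPolynomial ι K) = 0 := by
  rw [← C_1]; exact T_C q S i 1

/-- `[T_i, x_i] = 1 - q Σ_l s_il`. -/
theorem T_X_self_mul (q : K) (S : Finset ι) (i : ι) (f : MvPolynomial ι K) :
    T q S i (X i * f) = X i * T q S i f + f - C q * ∑ l ∈ S.erase i, sw i l f := by
  rw [T_apply, T_apply]
  have h1 : ∑ j ∈ S.erase i, dd i j (X i * f)
      = X i * ∑ j ∈ S.erase i, dd i j f + ∑ l ∈ S.erase i, sw i l f := by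
    rw [Finset.mul_sum, ← Finset.sum_add_distrib]
    refine Finset.sum_congr rfl fun j hj => ?_
    exact dd_X_left_mul (Finset.ne_of_mem_erase hj).symm f
  rw [h1, Derivation.leibniz, pderiv_X_self]
  simp only [smul_eq_mul]
  ring

/-- `[T_i, x_j] = q s_ij` for `j ≠ i` active. -/
theorem T_X_mul_of_mem (q : K) (S : Finset ι) {i j : ι} (hj : j ∈ S) (hij : i ≠ j)
    (f : MvPolynomial ι K) :
    T q S i (X j * f) = X j * T q S i f + C q * sw i j f := by
  rw [T_apply, T_apply]
  have hjm : j ∈ S.erase i := Finset.mem_erase.2 ⟨hij.symm, hj⟩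
  have h1 : ∑ l ∈ S.erase i, dd i l (X j * f)
      = X j * ∑ l ∈ S.erase i, dd i l f - sw i j f := by
    rw [← Finset.add_sum_erase _ _ hjm, ← Finset.add_sum_erase (S.erase i) _ hjm,
      dd_X_right_mul hij, mul_add, Finset.mul_sum]
    have : ∑ l ∈ (S.erase i).erase j, dd i l (X j * f)
        = ∑ l ∈ (S.erase i).erase j, X j * dd i l f := by
      refine Finset.sum_congr rfl fun l hl => ?_
      exact dd_X_of_ne_mul hij.symm (Finset.ne_of_mem_erase hl).symm f
    rw [this]; ring
  rw [h1, Derivation.leibniz, pderiv_X_of_ne hij.symm]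
  simp only [smul_eq_mul]
  ring

/-- `[T_i, x_j] = 0` for `j ≠ i` not active. -/
theorem T_X_mul_of_notMem (q : K) (S : Finset ι) {i j : ι} (hj : j ∉ S) (hij : i ≠ j)
    (f : MvPolynomial ι K) :
    T q S i (X j * f) = X j * T q S i f := by
  rw [T_apply, T_apply]
  have h1 : ∑ l ∈ S.erase i, dd i l (X j * f) = X j * ∑ l ∈ S.erase i, dd i l f := by
    rw [Finset.mul_sum]
    refine Finset.sum_congr rfl fun l hl => ?_
    refine dd_X_of_ne_mul hij.symm ?_ f
    rintro rfl
    exact hj (Finset.mem_of_mem_erase hl)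
  rw [h1, Derivation.leibniz, pderiv_X_of_ne hij.symm]
  simp only [smul_eq_mul]
  ring

/-- Conjugation of a Dunkl operator by a permutation of the variables preserving `S`. -/
theorem rename_T (q : K) (S : Finset ι) (σ : Equiv.Perm ι) (hσ : ∀ l, σ l ∈ S ↔ l ∈ S) (i : ι)
    (f : MvPolynomial ι K) :
    rename σ (T q S i f) = T q S (σ i) (rename σ f) := by
  rw [T_apply, T_apply, map_sub, map_mul, rename_C, map_sum]
  congr 1
  · rw [pderiv_rename σ.injective]
  · congr 1
    refine Finset.sum_bij (fun l _ => σ l) ?_ ?_ ?_ ?_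
    · intro l hl
      rw [Finset.mem_erase] at hl ⊢
      exact ⟨fun h => hl.1 (σ.injective h), (hσ l).2 hl.2⟩
    · intro a _ b _ h
      exact σ.injective h
    · intro b hb
      rw [Finset.mem_erase] at hb
      refine ⟨σ.symm b, ?_, by simp⟩
      rw [Finset.mem_erase]
      refine ⟨fun h => hb.1 (by rw [← h]; simp), (hσ _).1 (by simpa using hb.2)⟩
    · intro l _
      exact rename_dd σ i l f

theorem sw_T_of_mem (q : K) (S : Finset ι) {a b : ι} (ha : a ∈ S) (hb : b ∈ S) (i : ι)
    (f : MvPolynomial ι K) :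
    sw a b (T q S i f) = T q S (Equiv.swap a b i) (sw a b f) := by
  refine rename_T q S (Equiv.swap a b) ?_ i f
  intro l
  rcases eq_or_ne l a with h | h
  · subst h; simp [ha, hb]
  · rcases eq_or_ne l b with h' | h'
    · subst h'; simp [ha, hb]
    · rw [Equiv.swap_apply_of_ne_of_ne h h']

/-- The Dunkl operators commute. -/
theorem T_comm (q : K) (S : Finset ι) {i j : ι} (hi : i ∈ S) (hj : j ∈ S)
    (f : MvPolynomial ι K) :
    T q S i (T q S j f) = T q S j (T q S i f) := by
  rcases eq_or_ne i j with hij | hij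
  · subst hij; rfl
  induction f using MvPolynomial.induction_on with
  | C a => simp
  | add p r hp hr => simp only [map_add, hp, hr]
  | mul_X p l hp =>
    rw [mul_comm p (X l)]
    by_cases hli : l = i
    · subst hli
      rw [T_X_mul_of_mem q S hi hij.symm, T_X_self_mul]
      simp only [map_add, map_sub]
      rw [T_X_self_mul, T_X_mul_of_mem q S hi hij.symm]
      have e1 : T q S l (C q * sw j l p) = C q * T q S l (sw j l p) := by
        rw [← smul_eq_C_mul, map_smul, smul_eq_C_mul]
      have e2 : T q S j (C q * ∑ m ∈ S.erase l, sw l m p)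
          = C q * ∑ m ∈ S.erase l, T q S j (sw l m p) := by
        rw [← smul_eq_C_mul, map_smul, smul_eq_C_mul, map_sum]
      rw [e1, e2, hp]
      have hjm : j ∈ S.erase l := Finset.mem_erase.2 ⟨hij.symm, hj⟩
      have e3 : ∑ m ∈ S.erase l, sw l m (T q S j p)
          = ∑ m ∈ S.erase l, T q S j (sw l m p) + (sw l j (T q S j p) - T q S j (sw l j p)) := by
        rw [← Finset.add_sum_erase _ _ hjm, ← Finset.add_sum_erase (S.erase l) _ hjm]
        have : ∑ m ∈ (S.erase l).erase j, sw l m (T q S j p)
            = ∑ m ∈ (S.erase l).erase j, T q S j (sw l m p) := by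
          refine Finset.sum_congr rfl fun m hm => ?_
          have hm2 := Finset.mem_of_mem_erase hm
          have hm3 := Finset.ne_of_mem_erase hm
          rw [sw_T_of_mem q S hi (Finset.mem_of_mem_erase hm2),
            Equiv.swap_apply_of_ne_of_ne hij.symm hm3.symm]
        rw [this]; ring
      rw [e3]
      have e4 : sw l j (T q S j p) = T q S l (sw l j p) := by
        rw [sw_T_of_mem q S hi hj, Equiv.swap_apply_right]
      have e5 : sw j l (T q S l p) = T q S j (sw l j p) := by
        rw [sw_T_of_mem q S hj hi, Equiv.swap_apply_right, sw_comm]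
      rw [e4, e5, sw_comm j l p]
      ring
    · by_cases hlj : l = j
      · subst hlj
        rw [T_X_mul_of_mem q S hj hij, T_X_self_mul]
        simp only [map_add, map_sub]
        rw [T_X_self_mul, T_X_mul_of_mem q S hj hij]
        have e1 : T q S l (C q * sw i l p) = C q * T q S l (sw i l p) := by
          rw [← smul_eq_C_mul, map_smul, smul_eq_C_mul]
        have e2 : T q S i (C q * ∑ m ∈ S.erase l, sw l m p)
            = C q * ∑ m ∈ S.erase l, T q S i (sw l m p) := by
          rw [← smul_eq_C_mul, map_smul, smul_eq_C_mul, map_sum]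
        rw [e1, e2, hp]
        have him : i ∈ S.erase l := Finset.mem_erase.2 ⟨hij, hi⟩
        have e3 : ∑ m ∈ S.erase l, sw l m (T q S i p)
            = ∑ m ∈ S.erase l, T q S i (sw l m p)
              + (sw l i (T q S i p) - T q S i (sw l i p)) := by
          rw [← Finset.add_sum_erase _ _ him, ← Finset.add_sum_erase (S.erase l) _ him]
          have : ∑ m ∈ (S.erase l).erase i, sw l m (T q S i p)
              = ∑ m ∈ (S.erase l).erase i, T q S i (sw l m p) := by
            refine Finset.sum_congr rfl fun m hm => ?_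
            have hm2 := Finset.mem_of_mem_erase hm
            have hm3 := Finset.ne_of_mem_erase hm
            rw [sw_T_of_mem q S hj (Finset.mem_of_mem_erase hm2),
              Equiv.swap_apply_of_ne_of_ne hij hm3.symm]
          rw [this]; ring
        rw [e3]
        have e4 : sw l i (T q S i p) = T q S l (sw l i p) := by
          rw [sw_T_of_mem q S hj hi, Equiv.swap_apply_right]
        have e5 : sw i l (T q S l p) = T q S i (sw l i p) := by
          rw [sw_T_of_mem q S hi hj, Equiv.swap_apply_right, sw_comm]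
        rw [e4, e5, sw_comm i l p]
        ring
      · by_cases hlS : l ∈ S
        · rw [T_X_mul_of_mem q S hlS (Ne.symm hli), T_X_mul_of_mem q S hlS (Ne.symm hlj)]
          simp only [map_add]
          rw [T_X_mul_of_mem q S hlS (Ne.symm hli), T_X_mul_of_mem q S hlS (Ne.symm hlj)]
          have e1 : T q S i (C q * sw j l p) = C q * T q S i (sw j l p) := by
            rw [← smul_eq_C_mul, map_smul, smul_eq_C_mul]
          have e2 : T q S j (C q * sw i l p) = C q * T q S j (sw i l p) := by
            rw [← smul_eq_C_mul, map_smul, smul_eq_C_mul]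
          have e3 : sw j l (T q S i p) = T q S i (sw j l p) := by
            rw [sw_T_of_mem q S hj hlS, Equiv.swap_apply_of_ne_of_ne hij (Ne.symm hli)]
          have e4 : sw i l (T q S j p) = T q S j (sw i l p) := by
            rw [sw_T_of_mem q S hi hlS, Equiv.swap_apply_of_ne_of_ne hij.symm (Ne.symm hlj)]
          rw [e1, e2, e3, e4, hp]
          ring
        · rw [T_X_mul_of_notMem q S hlS (Ne.symm hli), T_X_mul_of_notMem q S hlS (Ne.symm hlj),
            T_X_mul_of_notMem q S hlS (Ne.symm hli), T_X_mul_of_notMem q S hlS (Ne.symm hlj), hp]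

end Vale.Agent.P181.H602
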