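import Vale.Agent.P181.H602.Coef

/-!
# The kernel family is stable under the Dunkl operators
-/

namespace Vale.Agent.P181.H602

open MvPolynomial

variable {ι : Type*} [DecidableEq ι] {K : Type*} [Field K]

/-- Exponent of `(x_a - y_b)`. -/
def ex (q : ℕ) (a b : ι) : ℕ := q - if a = b then 1 else 0

/-- The kernel `∏_{a, b ∈ S} (x_a - y_b)^(q - [a = b])`. -/
noncomputable def P (q : ℕ) (S : Finset ι) (y : ι → K) : MvPolynomial ι K :=
  ∏ a ∈ S, ∏ b ∈ S, (X a - C (y b)) ^ ex q a b

/-- The kernel with the two factors `(x_i - y_j)(x_j - y_i)` removed. -/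
noncomputable def H (q : ℕ) (S : Finset ι) (y : ι → K) (i j : ι) : MvPolynomial ι K :=
  ∏ a ∈ S, ∏ b ∈ S, (X a - C (y b)) ^
    (ex q a b - (if a = i ∧ b = j then 1 else 0) - (if a = j ∧ b = i then 1 else 0))

theorem P_eq_mul_H {q : ℕ} (hq : 1 ≤ q) {S : Finset ι} (y : ι → K) {i j : ι} (hi : i ∈ S)
    (hj : j ∈ S) (hij : i ≠ j) :
    P q S y = (X i - C (y j)) * (X j - C (y i)) * H q S y i j := by
  have h1 : ∀ (u v : ι), u ∈ S → v ∈ S →
      ∏ a ∈ S, ∏ b ∈ S, (X a - C (y b) : MvPolynomial ι K) ^ (if a = u ∧ b = v then 1 else 0)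
      = X u - C (y v) := by
    intro u v hu hv
    rw [Finset.prod_eq_single_of_mem u hu, Finset.prod_eq_single_of_mem v hv]
    · simp
    · intro b _ hb; simp [hb]
    · intro a _ ha
      refine Finset.prod_eq_one fun b _ => ?_
      simp [ha]
  rw [← h1 i j hi hj, ← h1 j i hj hi]
  unfold P H
  rw [← Finset.prod_mul_distrib, ← Finset.prod_mul_distrib]
  refine Finset.prod_congr rfl fun a _ => ?_
  rw [← Finset.prod_mul_distrib, ← Finset.prod_mul_distrib]
  refine Finset.prod_congr rfl fun b _ => ?_
  rw [← pow_add, ← pow_add]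
  congr 1
  unfold ex
  by_cases h2 : a = i ∧ b = j
  · obtain ⟨rfl, rfl⟩ := h2
    simp [hij]
    omega
  · by_cases h3 : a = j ∧ b = i
    · obtain ⟨rfl, rfl⟩ := h3
      simp [hij.symm]
      omega
    · simp [h2, h3]

theorem sw_H (q : ℕ) {S : Finset ι} (y : ι → K) {i j : ι} (hi : i ∈ S)
    (hj : j ∈ S) (hij : i ≠ j) : sw i j (H q S y i j) = H q S y i j := by
  unfold H
  rw [map_prod]
  refine Finset.prod_bij (fun a _ => Equiv.swap i j a) ?_ ?_ ?_ ?_
  · intro a ha
    by_cases h1 : a = i
    · subst h1; simpa using hj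
    · by_cases h2 : a = j
      · subst h2; simpa using hi
      · rwa [Equiv.swap_apply_of_ne_of_ne h1 h2]
  · intro a _ b _ h
    exact (Equiv.swap i j).injective h
  · intro b hb
    refine ⟨Equiv.swap i j b, ?_, by simp⟩
    by_cases h1 : b = i
    · subst h1; simpa using hj
    · by_cases h2 : b = j
      · subst h2; simpa using hi
      · rwa [Equiv.swap_apply_of_ne_of_ne h1 h2]
  · intro a _
    rw [map_prod]
    refine Finset.prod_congr rfl fun b _ => ?_
    rw [map_pow, map_sub, sw_X]
    have hC : sw i j (C (y b) : MvPolynomial ι K) = C (y b) := by simp [sw]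
    rw [hC]
    congr 1
    unfold ex
    by_cases h1 : a = i
    · subst h1
      rw [Equiv.swap_apply_left]
      by_cases hb : b = a
      · subst hb; simp [hij, hij.symm]
      · by_cases hb' : b = j
        · subst hb'; simp [hij, hij.symm]
        · simp [hij, hij.symm, hb, hb', Ne.symm hb, Ne.symm hb']
    · by_cases h2 : a = j
      · subst h2
        rw [Equiv.swap_apply_right]
        by_cases hb : b = i
        · subst hb; simp [hij, hij.symm]
        · by_cases hb' : b = a
          · subst hb'; simp [hij, hij.symm]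
          · simp [hij, hij.symm, hb, hb', Ne.symm hb, Ne.symm hb']
      · rw [Equiv.swap_apply_of_ne_of_ne h1 h2]

/-- Swapping the `x` is the same as swapping the `y`. -/
theorem sw_P (q : ℕ) {S : Finset ι} (y : ι → K) {i j : ι} (hi : i ∈ S) (hj : j ∈ S) :
    sw i j (P q S y) = P q S (y ∘ Equiv.swap i j) := by
  have hmem : ∀ a ∈ S, Equiv.swap i j a ∈ S := by
    intro a ha
    by_cases h1 : a = i
    · subst h1; simpa using hj
    · by_cases h2 : a = j
      · subst h2; simpa using hi
      · rwa [Equiv.swap_apply_of_ne_of_ne h1 h2]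
  unfold P
  rw [map_prod]
  refine Finset.prod_bij (fun a _ => Equiv.swap i j a) (fun a ha => hmem a ha) ?_ ?_ ?_
  · intro a _ b _ h
    exact (Equiv.swap i j).injective h
  · intro b hb
    exact ⟨Equiv.swap i j b, hmem b hb, by simp⟩
  · intro a _
    rw [map_prod]
    refine Finset.prod_bij (fun b _ => Equiv.swap i j b) (fun b hb => hmem b hb) ?_ ?_ ?_
    · intro a _ b _ h
      exact (Equiv.swap i j).injective h
    · intro b hb
      exact ⟨Equiv.swap i j b, hmem b hb, by simp⟩
    · intro b _
      rw [map_pow, map_sub, sw_X]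
      have hC : sw i j (C (y b) : MvPolynomial ι K) = C (y b) := by simp [sw]
      rw [hC]
      unfold ex
      simp

/-- Divided difference of the kernel. -/
theorem dd_P {q : ℕ} (hq : 1 ≤ q) {S : Finset ι} (y : ι → K) {i j : ι} (hi : i ∈ S)
    (hj : j ∈ S) (hij : i ≠ j) :
    dd i j (P q S y) = H q S y i j * C (y j - y i) := by
  have h1 : dd i j ((X i - C (y j)) * (X j - C (y i)) : MvPolynomial ι K) = C (y j - y i) := by
    apply dd_eq_of hij
    have hC : ∀ a : K, sw i j (C a : MvPolynomial ι K) = C a := by intro a; simp [sw]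
    simp only [map_mul, map_sub, hC, sw_X_left, sw_X_right]
    ring
  rw [P_eq_mul_H hq y hi hj hij, mul_comm, dd_mul_left (sw_H q y hi hj hij), h1]

theorem H_mul_X_sub_X {q : ℕ} (hq : 1 ≤ q) {S : Finset ι} (y : ι → K) {i j : ι} (hi : i ∈ S)
    (hj : j ∈ S) (hij : i ≠ j) :
    C (y j - y i) * ((X i - X j) * H q S y i j) = P q S y - P q S (y ∘ Equiv.swap i j) := by
  have h1 := mul_dd i j (P q S y)
  rw [dd_P hq y hi hj hij, sw_P q y hi hj] at h1
  rw [← h1]; ring

/-! ### The spans -/

/-- The span of the kernels with distinct `y`. -/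
noncomputable def W (K : Type*) [Field K] (q : ℕ) (S : Finset ι) :
    Submodule K (MvPolynomial ι K) :=
  Submodule.span K {f | ∃ y : ι → K, Set.InjOn y (S : Set ι) ∧ f = P q S y}

theorem P_mem_W (q : ℕ) {S : Finset ι} {y : ι → K} (hy : Set.InjOn y (S : Set ι)) :
    P q S y ∈ W K q S := Submodule.subset_span ⟨y, hy, rfl⟩

omit [DecidableEq ι] in
/-- A polynomial family with infinitely many values in a subspace has all its
coefficients there. -/
theorem coeff_mem_of_eval_mem (W : Submodule K (MvPolynomial ι K))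
    (G : Polynomial (MvPolynomial ι K)) {A : Set K} (hA : A.Infinite)
    (h : ∀ s ∈ A, G.eval (C s) ∈ W) (k : ℕ) : G.coeff k ∈ W := by
  rw [← Subspace.forall_mem_dualAnnihilator_apply_eq_zero_iff]
  intro φ hφ
  rw [Submodule.mem_dualAnnihilator] at hφ
  let g : Polynomial K := ∑ m ∈ Finset.range (G.natDegree + 1),
    Polynomial.C (φ (G.coeff m)) * Polynomial.X ^ m
  have hg : ∀ s : K, g.eval s = φ (G.eval (C s)) := by
    intro s
    have e0 : G.eval (C s) = ∑ m ∈ Finset.range (G.natDegree + 1), G.coeff m * C s ^ m :=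
      Polynomial.eval_eq_sum_range _
    rw [e0, map_sum, Polynomial.eval_finsetSum]
    refine Finset.sum_congr rfl fun m _ => ?_
    rw [Polynomial.eval_mul, Polynomial.eval_C, Polynomial.eval_pow, Polynomial.eval_X,
      ← C_pow, mul_comm (G.coeff m), ← smul_eq_C_mul, map_smul, smul_eq_mul, mul_comm]
  have hg0 : g = 0 := by
    apply Polynomial.eq_zero_of_infinite_isRoot
    refine hA.mono fun s hs => ?_
    show g.eval s = 0
    rw [hg]
    exact hφ _ (h s hs)
  rcases le_or_gt k G.natDegree with hk | hk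
  · have h1 : g.coeff k = φ (G.coeff k) := by
      simp only [g, Polynomial.finsetSum_coeff, Polynomial.coeff_C_mul, Polynomial.coeff_X_pow]
      rw [Finset.sum_eq_single_of_mem k (Finset.mem_range.2 (by omega))]
      · simp
      · intro b _ hb
        simp [Ne.symm hb]
    rw [← h1, hg0, Polynomial.coeff_zero]
  · rw [Polynomial.coeff_eq_zero_of_natDegree_lt hk, map_zero]

/-! ### The derivative with respect to `y_i` -/

/-- Leibniz rule for products. -/
theorem leib {R A : Type*} [CommRing R] [CommRing A] [Algebra R A] {κ : Type*} [DecidableEq κ]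
    (D : Derivation R A A) (J : Finset κ) (f : κ → A) :
    D (∏ j ∈ J, f j) = ∑ j ∈ J, D (f j) * ∏ l ∈ J.erase j, f l := by
  induction J using Finset.induction_on with
  | empty => simp
  | insert a J ha ih =>
    rw [Finset.prod_insert ha, D.leibniz, ih, Finset.sum_insert ha, Finset.erase_insert ha]
    simp only [smul_eq_mul]
    rw [Finset.mul_sum, add_comm]
    congr 1
    · ring
    · refine Finset.sum_congr rfl fun j hj => ?_
      have hja : j ≠ a := by rintro rfl; exact ha hj
      have : (insert a J).erase j = insert a (J.erase j) := by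
        rw [Finset.erase_insert_of_ne hja.symm]
      rw [this, Finset.prod_insert (fun h => ha (Finset.mem_of_mem_erase h))]
      ring

/-- The part of the kernel without `x_i` and `y_i`. -/
noncomputable def Rr (q : ℕ) (S : Finset ι) (y : ι → K) (i : ι) : MvPolynomial ι K :=
  ∏ a ∈ S.erase i, ∏ b ∈ S.erase i, (X a - C (y b)) ^ ex q a b

theorem P_regroup (q : ℕ) {S : Finset ι} (y : ι → K) {i : ι} (hi : i ∈ S) :
    P q S y = Rr q S y i * ((X i - C (y i)) ^ (q - 1) *
      ∏ j ∈ S.erase i, ((X i - C (y j)) * (X j - C (y i))) ^ q) := by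
  unfold P Rr
  rw [← Finset.mul_prod_erase S _ hi, ← Finset.mul_prod_erase S _ hi]
  have h1 : ∏ a ∈ S.erase i, ∏ b ∈ S, (X a - C (y b) : MvPolynomial ι K) ^ ex q a b
      = (∏ a ∈ S.erase i, (X a - C (y i)) ^ q) *
        ∏ a ∈ S.erase i, ∏ b ∈ S.erase i, (X a - C (y b)) ^ ex q a b := by
    rw [← Finset.prod_mul_distrib]
    refine Finset.prod_congr rfl fun a ha => ?_
    rw [← Finset.mul_prod_erase S _ hi]
    simp [ex, Finset.ne_of_mem_erase ha]
  have h2 : ∏ b ∈ S.erase i, (X i - C (y b) : MvPolynomial ι K) ^ ex q i b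
      = ∏ b ∈ S.erase i, (X i - C (y b)) ^ q := by
    refine Finset.prod_congr rfl fun b hb => ?_
    simp [ex, (Finset.ne_of_mem_erase hb).symm]
  rw [h1, h2]
  have h3 : ex q i i = q - 1 := by simp [ex]
  rw [h3]
  simp only [mul_pow, Finset.prod_mul_distrib]
  ring

/-- The family `y_i ↦ y_i + s`. -/
noncomputable def G (q : ℕ) (S : Finset ι) (y : ι → K) (i : ι) :
    Polynomial (MvPolynomial ι K) :=
  ∏ a ∈ S, ∏ b ∈ S,
    (Polynomial.C (X a - C (y b)) - if b = i then Polynomial.X else 0) ^ ex q a b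

theorem eval_G (q : ℕ) (S : Finset ι) (y : ι → K) (i : ι) (s : K) :
    (G q S y i).eval (C s) = P q S (Function.update y i (y i + s)) := by
  unfold G P
  rw [Polynomial.eval_prod]
  refine Finset.prod_congr rfl fun a _ => ?_
  rw [Polynomial.eval_prod]
  refine Finset.prod_congr rfl fun b _ => ?_
  rw [Polynomial.eval_pow, Polynomial.eval_sub, Polynomial.eval_C]
  congr 1
  by_cases hb : b = i
  · subst hb
    simp only [if_true, Polynomial.eval_X, Function.update_self, C_add]
    ring
  · simp only [if_neg hb, Polynomial.eval_zero, Function.update_of_ne hb, sub_zero]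

theorem G_regroup (q : ℕ) {S : Finset ι} (y : ι → K) {i : ι} (hi : i ∈ S) :
    G q S y i = Polynomial.C (Rr q S y i) *
      ((Polynomial.C (X i - C (y i)) - Polynomial.X) ^ (q - 1) *
      ∏ j ∈ S.erase i, (Polynomial.C (X i - C (y j)) *
        (Polynomial.C (X j - C (y i)) - Polynomial.X)) ^ q) := by
  unfold G Rr
  rw [← Finset.mul_prod_erase S _ hi, ← Finset.mul_prod_erase S _ hi]
  have h1 : ∏ a ∈ S.erase i, ∏ b ∈ S,
      (Polynomial.C (X a - C (y b) : MvPolynomial ι K) -
        if b = i then Polynomial.X else 0) ^ ex q a b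
      = (∏ a ∈ S.erase i, (Polynomial.C (X a - C (y i)) - Polynomial.X) ^ q) *
        ∏ a ∈ S.erase i, ∏ b ∈ S.erase i, Polynomial.C ((X a - C (y b)) ^ ex q a b) := by
    rw [← Finset.prod_mul_distrib]
    refine Finset.prod_congr rfl fun a ha => ?_
    rw [← Finset.mul_prod_erase S _ hi]
    congr 1
    · simp [ex, Finset.ne_of_mem_erase ha]
    · refine Finset.prod_congr rfl fun b hb => ?_
      rw [if_neg (Finset.ne_of_mem_erase hb), sub_zero, Polynomial.C_pow]
  have h2 : ∏ b ∈ S.erase i, (Polynomial.C (X i - C (y b) : MvPolynomial ι K) -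
        if b = i then Polynomial.X else 0) ^ ex q i b
      = ∏ b ∈ S.erase i, (Polynomial.C (X i - C (y b))) ^ q := by
    refine Finset.prod_congr rfl fun b hb => ?_
    rw [if_neg (Finset.ne_of_mem_erase hb), sub_zero]
    simp [ex, (Finset.ne_of_mem_erase hb).symm]
  rw [h1, h2]
  have h3 : ex q i i = q - 1 := by simp [ex]
  rw [h3, if_pos rfl]
  simp only [mul_pow, Finset.prod_mul_distrib, map_prod]
  ring

theorem pderiv_Rr (q : ℕ) (S : Finset ι) (y : ι → K) (i : ι) :
    pderiv i (Rr q S y i) = 0 := by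
  unfold Rr
  rw [leib]
  refine Finset.sum_eq_zero fun a ha => ?_
  rw [leib]
  rw [Finset.sum_eq_zero, zero_mul]
  intro b _
  rw [Derivation.leibniz_pow, map_sub, pderiv_X_of_ne (Finset.ne_of_mem_erase ha), pderiv_C]
  simp

/-- A derivation on the regrouped product. -/
theorem der_form {R A : Type*} [CommRing R] [CommRing A] [Algebra R A] {κ : Type*}
    [DecidableEq κ] (D : Derivation R A A) (J : Finset κ) (f : κ → A) (Z R₀ : A)
    (hR : D R₀ = 0) (q n : ℕ) :
    D (R₀ * (Z ^ n * ∏ j ∈ J, f j ^ q))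
      = R₀ * ((n : A) * Z ^ (n - 1) * D Z * ∏ j ∈ J, f j ^ q
        + Z ^ n * ∑ j ∈ J, ((q : A) * f j ^ (q - 1) * D (f j)) * ∏ l ∈ J.erase j, f l ^ q) := by
  rw [D.leibniz, hR, smul_zero, add_zero, D.leibniz, leib, D.leibniz_pow]
  simp only [smul_eq_mul, nsmul_eq_mul, D.leibniz_pow]
  rw [add_comm]
  congr 1
  congr 1
  · ring
  · congr 1
    refine Finset.sum_congr rfl fun j _ => ?_
    ring

theorem pderiv_P (q : ℕ) {S : Finset ι} (y : ι → K) {i : ι} (hi : i ∈ S) :
    pderiv i (P q S y) = Rr q S y i *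
      (((q - 1 : ℕ) : MvPolynomial ι K) * (X i - C (y i)) ^ (q - 1 - 1) *
        ∏ j ∈ S.erase i, ((X i - C (y j)) * (X j - C (y i))) ^ q
      + (X i - C (y i)) ^ (q - 1) * ∑ j ∈ S.erase i,
        ((q : MvPolynomial ι K) * ((X i - C (y j)) * (X j - C (y i))) ^ (q - 1) *
          (X j - C (y i))) *
        ∏ l ∈ (S.erase i).erase j, ((X i - C (y l)) * (X l - C (y i))) ^ q) := by
  have e1 : pderiv i (X i - C (y i) : MvPolynomial ι K) = 1 := by
    rw [map_sub, pderiv_X_self, pderiv_C, sub_zero]
  have e2 : ∀ j ∈ S.erase i, ((q : MvPolynomial ι K) *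
      ((X i - C (y j)) * (X j - C (y i))) ^ (q - 1) *
        pderiv i ((X i - C (y j)) * (X j - C (y i)) : MvPolynomial ι K)) *
        ∏ l ∈ (S.erase i).erase j, ((X i - C (y l)) * (X l - C (y i))) ^ q
      = ((q : MvPolynomial ι K) *
      ((X i - C (y j)) * (X j - C (y i))) ^ (q - 1) * (X j - C (y i))) *
        ∏ l ∈ (S.erase i).erase j, ((X i - C (y l)) * (X l - C (y i))) ^ q := by
    intro j hj
    have e3 : pderiv i ((X i - C (y j)) * (X j - C (y i)) : MvPolynomial ι K)
        = X j - C (y i) := by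
      rw [Derivation.leibniz, map_sub, map_sub, pderiv_X_self, pderiv_C,
        pderiv_X_of_ne (Finset.ne_of_mem_erase hj), pderiv_C]
      simp only [smul_eq_mul]
      ring
    rw [e3]
  rw [P_regroup q y hi, der_form _ _ _ _ _ (pderiv_Rr q S y i), e1, mul_one,
    Finset.sum_congr rfl e2]

theorem coeff_one_G (q : ℕ) {S : Finset ι} (y : ι → K) {i : ι} (hi : i ∈ S) :
    (G q S y i).coeff 1 = - (Rr q S y i *
      (((q - 1 : ℕ) : MvPolynomial ι K) * (X i - C (y i)) ^ (q - 1 - 1) *
        ∏ j ∈ S.erase i, ((X i - C (y j)) * (X j - C (y i))) ^ q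
      + (X i - C (y i)) ^ (q - 1) * ∑ j ∈ S.erase i,
        ((q : MvPolynomial ι K) * ((X i - C (y j)) * (X j - C (y i))) ^ (q - 1) *
          (X i - C (y j))) *
        ∏ l ∈ (S.erase i).erase j, ((X i - C (y l)) * (X l - C (y i))) ^ q)) := by
  have hc1 : (G q S y i).coeff 1 = (Polynomial.derivative (G q S y i)).eval 0 := by
    rw [← Polynomial.coeff_zero_eq_eval_zero, Polynomial.coeff_derivative]
    simp
  have e1 : Polynomial.derivative (G q S y i)
      = (Polynomial.derivative' (R := MvPolynomial ι K)) (G q S y i) := rfl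
  have e2 : (Polynomial.derivative' (R := MvPolynomial ι K)) (Polynomial.C (Rr q S y i)) = 0 :=
    Polynomial.derivative_C
  rw [hc1, e1, G_regroup q y hi, der_form _ _ _ _ _ e2]
  have e3 : (Polynomial.derivative' (R := MvPolynomial ι K))
      (Polynomial.C (X i - C (y i)) - Polynomial.X) = -1 := by
    show Polynomial.derivative (Polynomial.C (X i - C (y i)) - Polynomial.X) = -1
    rw [Polynomial.derivative_sub, Polynomial.derivative_C, Polynomial.derivative_X, zero_sub]
  have e4 : ∀ j, (Polynomial.derivative' (R := MvPolynomial ι K))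
      (Polynomial.C (X i - C (y j)) * (Polynomial.C (X j - C (y i)) - Polynomial.X))
      = - Polynomial.C (X i - C (y j)) := by
    intro j
    show Polynomial.derivative (Polynomial.C (X i - C (y j)) *
      (Polynomial.C (X j - C (y i)) - Polynomial.X)) = _
    rw [Polynomial.derivative_C_mul, Polynomial.derivative_sub, Polynomial.derivative_C,
      Polynomial.derivative_X, zero_sub]
    ring
  rw [e3]
  simp only [e4]
  rw [Polynomial.eval_mul, Polynomial.eval_add, Polynomial.eval_C, ← mul_neg]
  congr 1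
  rw [neg_add]
  congr 1
  · simp only [Polynomial.eval_mul, Polynomial.eval_natCast, Polynomial.eval_pow,
      Polynomial.eval_sub, Polynomial.eval_C, Polynomial.eval_X, Polynomial.eval_neg,
      Polynomial.eval_one, Polynomial.eval_prod, sub_zero]
    ring
  · rw [Polynomial.eval_mul, Polynomial.eval_finsetSum, ← mul_neg, ← Finset.sum_neg_distrib]
    congr 1
    · simp only [Polynomial.eval_pow, Polynomial.eval_sub, Polynomial.eval_C, Polynomial.eval_X,
        sub_zero]
    · refine Finset.sum_congr rfl fun j _ => ?_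
      simp only [Polynomial.eval_mul, Polynomial.eval_natCast, Polynomial.eval_pow,
        Polynomial.eval_sub, Polynomial.eval_C, Polynomial.eval_X, Polynomial.eval_neg,
        Polynomial.eval_prod, sub_zero]
      ring

theorem H_regroup {q : ℕ} (hq : 1 ≤ q) {S : Finset ι} (y : ι → K) {i j : ι} (hi : i ∈ S)
    (hj : j ∈ S.erase i) :
    H q S y i j = Rr q S y i * ((X i - C (y i)) ^ (q - 1) *
      (((X i - C (y j)) * (X j - C (y i))) ^ (q - 1) *
        ∏ l ∈ (S.erase i).erase j, ((X i - C (y l)) * (X l - C (y i))) ^ q)) := by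
  have hij : i ≠ j := (Finset.ne_of_mem_erase hj).symm
  have hne1 : ∀ (l : ι) (c : K), (X l - C c : MvPolynomial ι K) ≠ 0 := by
    intro l c h0
    have h1 := congrArg (pderiv l) h0
    rw [map_sub, pderiv_X_self, pderiv_C] at h1
    simp at h1
  apply mul_left_cancel₀ (mul_ne_zero (hne1 i (y j)) (hne1 j (y i)))
  rw [← P_eq_mul_H hq y hi (Finset.mem_of_mem_erase hj) hij, P_regroup q y hi,
    ← Finset.mul_prod_erase _ _ hj]
  have h3 : ((X i - C (y j)) * (X j - C (y i)) : MvPolynomial ι K) ^ q
      = ((X i - C (y j)) * (X j - C (y i))) * ((X i - C (y j)) * (X j - C (y i))) ^ (q - 1) := by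
    rw [← pow_succ']; congr 1; omega
  rw [h3]
  ring

/-- Key identity. -/
theorem pderiv_P_add {q : ℕ} (hq : 1 ≤ q) {S : Finset ι} (y : ι → K) {i : ι} (hi : i ∈ S) :
    pderiv i (P q S y) + (G q S y i).coeff 1
      = C (q : K) * ∑ j ∈ S.erase i,
        H q S y i j * ((X j - C (y i)) - (X i - C (y j))) := by
  have hs : ∑ j ∈ S.erase i, H q S y i j * ((X j - C (y i)) - (X i - C (y j)))
      = ∑ j ∈ S.erase i, (Rr q S y i * ((X i - C (y i)) ^ (q - 1) *
      (((X i - C (y j)) * (X j - C (y i))) ^ (q - 1) *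
        ∏ l ∈ (S.erase i).erase j, ((X i - C (y l)) * (X l - C (y i))) ^ q))) *
        ((X j - C (y i)) - (X i - C (y j))) :=
    Finset.sum_congr rfl fun j hj => by rw [H_regroup hq y hi hj]
  rw [pderiv_P q y hi, coeff_one_G q y hi, hs]
  have e4 : ∀ r u v w : MvPolynomial ι K, r * (u + v) + -(r * (u + w)) = r * (v - w) := by
    intro r u v w; ring
  rw [e4, ← mul_sub, ← Finset.sum_sub_distrib, Finset.mul_sum, Finset.mul_sum, Finset.mul_sum]
  refine Finset.sum_congr rfl fun j _ => ?_
  rw [map_natCast]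
  ring

/-- Stability of the span under `T_i`, on generators. -/
theorem T_P_mem {q : ℕ} (hq : 1 ≤ q) [Infinite K] {S : Finset ι} {y : ι → K}
    (hy : Set.InjOn y (S : Set ι)) {i : ι} (hi : i ∈ S) :
    T (q : K) S i (P q S y) ∈ W K q S := by
  have h1 : T (q : K) S i (P q S y) = - (G q S y i).coeff 1
      - C (q : K) * ∑ j ∈ S.erase i, (X i - X j) * H q S y i j := by
    rw [T_apply]
    have h2 := pderiv_P_add hq y hi
    have h3 : ∑ j ∈ S.erase i, dd i j (P q S y)
        = ∑ j ∈ S.erase i, H q S y i j * C (y j - y i) :=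
      Finset.sum_congr rfl fun j hj =>
        dd_P hq y hi (Finset.mem_of_mem_erase hj) (Finset.ne_of_mem_erase hj).symm
    have h4 : ∑ j ∈ S.erase i, H q S y i j * ((X j - C (y i)) - (X i - C (y j)))
        = ∑ j ∈ S.erase i, H q S y i j * C (y j - y i)
          - ∑ j ∈ S.erase i, (X i - X j) * H q S y i j := by
      rw [← Finset.sum_sub_distrib]
      refine Finset.sum_congr rfl fun j _ => ?_
      rw [map_sub]; ring
    rw [h4] at h2
    rw [h3]
    linear_combination h2
  rw [h1]
  refine Submodule.sub_mem _ (Submodule.neg_mem _ ?_) ?_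
  · -- the coefficient
    classical
    refine coeff_mem_of_eval_mem _ _ (A := {s : K | ∀ b ∈ S.erase i, y i + s ≠ y b}) ?_ ?_ 1
    · have : {s : K | ∀ b ∈ S.erase i, y i + s ≠ y b}
          = ((S.erase i).image (fun b => y b - y i) : Set K)ᶜ := by
        ext s
        simp only [Set.mem_ofPred_eq, Finset.coe_image, Set.mem_compl_iff, Set.mem_image,
          Finset.mem_coe, not_exists, not_and]
        constructor
        · intro h b hb h'
          exact h b hb (by rw [← h']; ring)
        · intro h b hb h'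
          exact h b hb (by rw [← h']; ring)
      rw [this]
      exact (Finset.finite_toSet _).infinite_compl
    · intro s hs
      rw [eval_G]
      apply P_mem_W
      intro a ha b hb hab
      by_cases ha' : a = i
      · by_cases hb' : b = i
        · rw [ha', hb']
        · exfalso
          subst ha'
          rw [Function.update_self, Function.update_of_ne hb'] at hab
          exact hs b (Finset.mem_erase.2 ⟨hb', hb⟩) hab
      · by_cases hb' : b = i
        · exfalso
          subst hb'
          rw [Function.update_self, Function.update_of_ne ha'] at hab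
          exact hs a (Finset.mem_erase.2 ⟨ha', ha⟩) hab.symm
        · rw [Function.update_of_ne ha', Function.update_of_ne hb'] at hab
          exact hy ha hb hab
  · rw [← smul_eq_C_mul]
    refine Submodule.smul_mem _ _ (Submodule.sum_mem _ fun j hj => ?_)
    have hjS := Finset.mem_of_mem_erase hj
    have hij : i ≠ j := (Finset.ne_of_mem_erase hj).symm
    have h2 := H_mul_X_sub_X hq y hi hjS hij
    have hne : y j - y i ≠ 0 := by
      rw [sub_ne_zero]
      intro h
      exact hij (hy hi hjS h.symm)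
    have h3 : (X i - X j) * H q S y i j
        = (y j - y i)⁻¹ • (P q S y - P q S (y ∘ Equiv.swap i j)) := by
      rw [← h2, ← smul_eq_C_mul, smul_smul, inv_mul_cancel₀ hne, one_smul]
    rw [h3]
    refine Submodule.smul_mem _ _ (Submodule.sub_mem _ (P_mem_W q hy) (P_mem_W q ?_))
    intro a ha b hb hab
    have hmem : ∀ a ∈ S, Equiv.swap i j a ∈ S := by
      intro a ha
      by_cases h1 : a = i
      · subst h1; simpa using hjS
      · by_cases h2 : a = j
        · subst h2; simpa using hi
        · rwa [Equiv.swap_apply_of_ne_of_ne h1 h2]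
    exact (Equiv.swap i j).injective (hy (hmem a ha) (hmem b hb) hab)

/-- The span is stable under `T_i`. -/
theorem T_mem_W {q : ℕ} (hq : 1 ≤ q) [Infinite K] {S : Finset ι} {i : ι} (hi : i ∈ S)
    {f : MvPolynomial ι K} (hf : f ∈ W K q S) : T (q : K) S i f ∈ W K q S := by
  unfold W at hf
  induction hf using Submodule.span_induction with
  | mem x hx =>
    obtain ⟨y, hy, rfl⟩ := hx
    exact T_P_mem hq hy hi
  | zero => rw [map_zero]; exact Submodule.zero_mem _
  | add x y _ _ hx hy => rw [map_add]; exact Submodule.add_mem _ hx hy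
  | smul a x _ hx => rw [map_smul]; exact Submodule.smul_mem _ _ hx

end Vale.Agent.P181.H602
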